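import Vale.Agent.P217.Univ.Main
import Vale.Agent.P217.Sym.Dictionary

/-!
# P217: the action of the extended stabiliser group

The deformation F, marked through a pair (τ, γ), is classified by exactly one endomorphism of E0,
and it is a symmetry of F.
-/

noncomputable section

namespace Vale.Agent.P217

open Vale.Agent.P217.Sym

/-- For each pair (τ, γ) the classifying endomorphism of the marked deformation is a symmetry. -/
def StabiliserAction : Prop :=
  ∀ (p n : ℕ) [Fact p.Prime], 1 ≤ n → ∀ F : FormalGroup (E0 p n), IsUniversalDeformation p n F →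
    ∀ (τ : GaloisField p n ≃+* GaloisField p n) (γ : PowerSeries (GaloisField p n)),
      IsLawHom (F.map residue) ((F.map residue).map τ.toRingHom) γ →
        IsUnit (PowerSeries.coeff 1 γ) →
          ∃ s φ, IsSymmetryVia F s φ ∧ (∀ a, residue (s a) = τ (residue a)) ∧
            PowerSeries.map residue φ = γ ∧
            ∀ (t : E0 p n →+* E0 p n) (θ : PowerSeries (E0 p n)),
              (∀ a, residue (t a) = τ (residue a)) → IsUnit (PowerSeries.coeff 1 θ) →
                IsLawHom F (F.map t) θ → PowerSeries.map residue θ = γ →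
                  t = s.toRingHom ∧ θ = φ

theorem stabiliserAction : StabiliserAction := by
  intro p n _ hn F hF τ γ hγ hγ1
  obtain ⟨s, φ, hs, hsτ, hφ⟩ := symmetry_exists hn hF τ hγ hγ1
  refine ⟨s, φ, hs, hsτ, hφ, fun t θ ht hθ1 hθ hθγ => ?_⟩
  set K : Ideal (E0 p n) := RingHom.ker (residue : E0 p n →+* GaloisField p n)
  have : IsAdicComplete K (E0 p n) := by
    rw [show K = IsLocalRing.maximalIdeal (E0 p n) from CPoint.ker_residue]
    exact B.SigmaBlock.complete_E0
  have := EF.isComm_universal hF
  let e := RingHom.quotientKerEquivOfSurjective (CPoint.residue_surjective (p := p) (n := n))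
  have he : ∀ a, e.symm (residue a) = Ideal.Quotient.mk K a := fun a => by
    rw [RingEquiv.symm_apply_eq]; rfl
  have hmap : ∀ f : PowerSeries (E0 p n),
      PowerSeries.map (Ideal.Quotient.mk K) f =
        PowerSeries.map e.symm.toRingHom (PowerSeries.map residue f) := fun f => by
    ext k
    simp only [PowerSeries.coeff_map]
    exact (he _).symm
  obtain ⟨x, -, huniq⟩ := universality p n hn F hF (E0 p n) K
    (by rw [RingHom.mem_ker, map_natCast, CharP.cast_eq_zero])
    (e.symm.toRingHom.comp τ.toRingHom) F (PowerSeries.map e.symm.toRingHom γ)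
    (by
      have h := hγ.map e.symm.toRingHom
      have e1 : (F.map residue).map e.symm.toRingHom = F.map (Ideal.Quotient.mk K) := by
        refine FormalGroup.ext (MvPowerSeries.ext fun d => ?_)
        simp only [FormalGroup.map_toPowerSeries, MvPowerSeries.coeff_map]
        exact he _
      have e2 : ((F.map residue).map τ.toRingHom).map e.symm.toRingHom =
          (F.map residue).map (e.symm.toRingHom.comp τ.toRingHom) := by
        refine FormalGroup.ext (MvPowerSeries.ext fun d => ?_)
        simp [FormalGroup.map_toPowerSeries]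
      rwa [e1, e2] at h)
    (by rw [PowerSeries.coeff_map]; exact hγ1.map _)
  have key : ∀ (t : E0 p n →+* E0 p n) θ, (∀ a, residue (t a) = τ (residue a)) →
      IsUnit (PowerSeries.coeff 1 θ) → IsLawHom F (F.map t) θ →
      PowerSeries.map residue θ = γ → (t, θ) = x := fun t θ ht h1 h2 h3 =>
    huniq (t, θ) ⟨fun a => by rw [← he, ht]; rfl, h1, h2, by rw [hmap, h3]⟩
  exact Prod.mk.inj ((key t θ ht hθ1 hθ hθγ).trans
    (key s.toRingHom φ hsτ hs.1 hs.2 hφ).symm)

end Vale.Agent.P217
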