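import Vale.Agent.P217.Univ.Defs

/-!
# Homogeneous symmetric 2-cocycles in characteristic p

The coefficients c j (0 < j < N) of a homogeneous symmetric 2-cocycle of degree N with values in a
group killed by p are the multiples of those of the binomial form, divided by p when N is a power
of p.
-/

namespace Vale.Agent.P217.Univ

/-- The coefficient relations of a homogeneous symmetric 2-cocycle of degree N. -/
structure IsCocycle {V : Type*} [AddCommGroup V] (N : ℕ) (c : ℕ → V) : Prop where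
  symm : ∀ i j, 1 ≤ i → 1 ≤ j → i + j = N → c i = c j
  rel : ∀ i j k, 1 ≤ i → 1 ≤ j → 1 ≤ k → i + j + k = N →
    (i + j).choose i • c (i + j) = (j + k).choose j • c (j + k)

section Binom

variable {p : ℕ} [Fact p.Prime]

/-- Lucas at level v. -/
theorem choose_split (v A r B s : ℕ) (hr : r < p ^ v) (hs : s < p ^ v) :
    (A * p ^ v + r).choose (B * p ^ v + s) ≡ A.choose B * r.choose s [MOD p] := by
  have hp : 0 < p := (Fact.out : p.Prime).pos
  induction v generalizing r s with
  | zero =>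
    obtain rfl : r = 0 := by simpa using hr
    obtain rfl : s = 0 := by simpa using hs
    simpa using Nat.ModEq.refl _
  | succ v ih =>
    have hdiv : ∀ A r : ℕ, (A * p ^ (v + 1) + r) / p = A * p ^ v + r / p := fun A r => by
      rw [pow_succ, ← mul_assoc, add_comm, Nat.add_mul_div_right _ _ hp, add_comm]
    have hmod : ∀ A r : ℕ, (A * p ^ (v + 1) + r) % p = r % p := fun A r => by
      rw [pow_succ, ← mul_assoc, add_comm, Nat.add_mul_mod_self_right]
    have hlt : ∀ r, r < p ^ (v + 1) → r / p < p ^ v := fun r h => by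
      rw [Nat.div_lt_iff_lt_mul hp]; rwa [pow_succ] at h
    refine Choose.choose_modEq_choose_mod_mul_choose_div_nat.trans ?_
    rw [hdiv, hdiv, hmod, hmod]
    refine ((ih _ _ (hlt r hr) (hlt s hs)).mul_left _).trans ?_
    rw [mul_left_comm]
    exact (Choose.choose_modEq_choose_mod_mul_choose_div_nat (n := r) (k := s)).symm.mul_left _

/-- The coefficient at a power of p. -/
theorem choose_pow (M a : ℕ) : M.choose (p ^ a) ≡ M / p ^ a [MOD p] := by
  have hp : 0 < p ^ a := pow_pos (Fact.out : p.Prime).pos a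
  have h := choose_split (p := p) a (M / p ^ a) (M % p ^ a) 1 0 (Nat.mod_lt _ hp) hp
  rw [Nat.div_add_mod', one_mul, add_zero, Nat.choose_one_right, Nat.choose_zero_right,
    mul_one] at h
  exact h

/-- A block of digits p - 1 read by itself. -/
theorem choose_block {a b : ℕ} (hab : a ≤ b) (A r : ℕ) (hr : r < p ^ a) :
    (A * p ^ b + ((p ^ b - p ^ a) + r)).choose (p ^ b - p ^ a) ≡ 1 [MOD p] := by
  have hp : 0 < p := (Fact.out : p.Prime).pos
  have hle : p ^ a ≤ p ^ b := Nat.pow_le_pow_right hp hab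
  have ha : 0 < p ^ a := pow_pos hp a
  have h := choose_split (p := p) b A ((p ^ b - p ^ a) + r) 0 (p ^ b - p ^ a) (by omega) (by omega)
  rw [zero_mul, zero_add, Nat.choose_zero_right, one_mul] at h
  refine h.trans ?_
  have e : p ^ b - p ^ a = (p ^ (b - a) - 1) * p ^ a := by
    rw [Nat.sub_mul, one_mul, ← pow_add, Nat.sub_add_cancel hab]
  have h2 := choose_split (p := p) a (p ^ (b - a) - 1) r (p ^ (b - a) - 1) 0 hr ha
  rw [add_zero, ← e, Nat.choose_self, Nat.choose_zero_right, one_mul] at h2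
  exact h2

theorem choose_pow_pow {a b : ℕ} (hab : a < b) : (p ^ b).choose (p ^ a) ≡ 0 [MOD p] :=
  Nat.modEq_zero_iff_dvd.2 <| (Fact.out : p.Prime).dvd_choose_pow
    (pow_ne_zero _ (Fact.out : p.Prime).ne_zero)
    (Nat.pow_lt_pow_right (Fact.out : p.Prime).one_lt hab).ne

/-- The binomial coefficient of a power of p at the previous power, divided by p. -/
theorem choose_div_pow {k : ℕ} (hk : 1 ≤ k) :
    (p ^ k).choose (p ^ (k - 1)) / p ≡ 1 [MOD p] := by
  obtain ⟨k, rfl⟩ := Nat.exists_eq_add_of_le' hk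
  have hp : 0 < p := (Fact.out : p.Prime).pos
  have hj : 0 < p ^ k := pow_pos hp k
  rw [Nat.add_sub_cancel]
  have h := Nat.add_one_mul_choose_eq (p ^ (k + 1) - 1) (p ^ k - 1)
  rw [Nat.sub_add_cancel (pow_pos hp (k + 1)), Nat.sub_add_cancel hj] at h
  have e : (p ^ (k + 1)).choose (p ^ k) = p * (p ^ (k + 1) - 1).choose (p ^ k - 1) := by
    apply Nat.eq_of_mul_eq_mul_right hj
    rw [← h, pow_succ]; ring
  rw [e, Nat.mul_div_cancel_left _ hp]
  have h1 : p ^ k ≤ p ^ (k + 1) := Nat.pow_le_pow_right hp (by omega)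
  have h2 := choose_split (p := p) k (p - 1) (p ^ k - 1) 0 (p ^ k - 1) (by omega) (by omega)
  rw [zero_mul, zero_add, Nat.choose_zero_right, one_mul, Nat.choose_self] at h2
  have e2 : (p - 1) * p ^ k + (p ^ k - 1) = p ^ (k + 1) - 1 := by
    rw [Nat.sub_mul, one_mul, pow_succ, mul_comm (p ^ k) p]
    rw [pow_succ, mul_comm] at h1
    omega
  rwa [e2] at h2

end Binom

section Lemma

variable {p : ℕ} [hpf : Fact p.Prime] {V : Type*} [AddCommGroup V] (hV : ∀ x : V, p • x = 0)
include hV

omit hpf in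
theorem nsmul_congr {a b : ℕ} (h : a ≡ b [MOD p]) (x : V) : a • x = b • x := by
  have e : ∀ a : ℕ, a • x = (a % p) • x := fun a => by
    conv_lhs => rw [← Nat.mod_add_div a p, add_nsmul, mul_comm, mul_nsmul', hV, smul_zero, add_zero]
  rw [e a, e b, h]

theorem eq_zero_of_nsmul {a : ℕ} (ha : ¬ p ∣ a) {x : V} (h : a • x = 0) : x = 0 := by
  obtain ⟨b, hb⟩ := Nat.exists_mul_mod_eq_one_of_coprime
    ((Nat.Prime.coprime_iff_not_dvd hpf.out).2 ha).symm hpf.out.one_lt
  have h1 : a * b ≡ 1 [MOD p] := by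
    show a * b % p = 1 % p
    rw [hb.2, Nat.one_mod_eq_one.2 hpf.out.one_lt.ne']
  calc x = (a * b) • x := by rw [nsmul_congr hV h1, one_nsmul]
    _ = 0 := by rw [mul_comm, mul_nsmul', h, smul_zero]

variable {N : ℕ} {c : ℕ → V}

theorem IsCocycle.reduce (hc : IsCocycle N c) {j : ℕ} (hj : 1 ≤ j) (hjN : j < N)
    (h : ∀ a, p ^ a < N → c (p ^ a) = 0) : c j = 0 := by
  obtain ⟨v, m, hm, rfl⟩ := Nat.exists_eq_pow_mul_and_not_dvd (n := j) (by omega) p hpf.out.ne_one
  have hp : 0 < p ^ v := pow_pos hpf.out.pos v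
  rcases Nat.lt_or_ge m 2 with hm2 | hm2
  · obtain rfl : m = 1 := by
      rcases Nat.eq_zero_or_pos m with rfl | h0
      · simp at hm
      · omega
    rw [mul_one] at hjN ⊢
    exact h v hjN
  · have hlt : p ^ v < p ^ v * m := lt_mul_of_one_lt_right hp (by omega)
    have hr := hc.rel (p ^ v) (p ^ v * m - p ^ v) (N - p ^ v * m) hp (by omega) (by omega) (by omega)
    rw [Nat.add_sub_cancel' hlt.le] at hr
    rw [hc.symm (p ^ v * m - p ^ v + (N - p ^ v * m)) (p ^ v) (by omega) hp (by omega),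
      h v (by omega), smul_zero] at hr
    refine eq_zero_of_nsmul hV ?_ hr
    rw [Nat.dvd_iff_mod_eq_zero, choose_pow (p ^ v * m) v, Nat.mul_div_cancel_left _ hp,
      ← Nat.dvd_iff_mod_eq_zero]
    exact hm

/-- A power of p inside a block of zero digits of N gives zero. -/
theorem IsCocycle.gap (hc : IsCocycle N c) {a b : ℕ} (hab : a < b) (hb : p ^ b < N)
    (hr : N % p ^ b < p ^ a) : c (p ^ a) = 0 := by
  have hp := hpf.out.pos
  have ha : 0 < p ^ a := pow_pos hp a
  have hlt : p ^ a < p ^ b := Nat.pow_lt_pow_right hpf.out.one_lt hab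
  have h := hc.rel (p ^ a) (p ^ b - p ^ a) (N - p ^ b) ha (by omega) (by omega) (by omega)
  rw [Nat.add_sub_cancel' hlt.le] at h
  rw [nsmul_congr hV (choose_pow_pow hab), zero_nsmul,
    hc.symm (p ^ b - p ^ a + (N - p ^ b)) (p ^ a) (by omega) ha (by omega)] at h
  have hA : 1 ≤ N / p ^ b := (Nat.one_le_div_iff (by omega)).2 hb.le
  have e : p ^ b - p ^ a + (N - p ^ b) =
      (N / p ^ b - 1) * p ^ b + (p ^ b - p ^ a + N % p ^ b) := by
    have hN := Nat.div_add_mod' N (p ^ b)
    have h1 : p ^ b ≤ N / p ^ b * p ^ b := Nat.le_mul_of_pos_left _ hA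
    rw [Nat.sub_mul, one_mul]
    omega
  rw [e, nsmul_congr hV (choose_block hab.le _ _ hr), one_nsmul] at h
  exact h.symm

/-- A zero digit of N which is not a power of p gives zero. -/
theorem IsCocycle.zero_digit (hc : IsCocycle N c) (hN : ∀ k, N ≠ p ^ k) {a : ℕ} (ha : p ^ a < N)
    (hd : N / p ^ a % p = 0) : c (p ^ a) = 0 := by
  have hp := hpf.out.pos
  have hq : 1 ≤ N / p ^ a := (Nat.one_le_div_iff (pow_pos hp a)).2 ha.le
  obtain ⟨e, A, hA, hE⟩ :=
    Nat.exists_eq_pow_mul_and_not_dvd (n := N / p ^ a) (by omega) p hpf.out.ne_one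
  have he : e ≠ 0 := by
    rintro rfl
    rw [pow_zero, one_mul] at hE
    exact hA (hE ▸ Nat.dvd_of_mod_eq_zero hd)
  have hN' : N = A * p ^ (a + e) + N % p ^ a := by
    conv_lhs => rw [← Nat.div_add_mod' N (p ^ a), hE]
    rw [pow_add]; ring
  have hlt : N % p ^ a < p ^ a := Nat.mod_lt _ (pow_pos hp a)
  have hlt2 : p ^ a ≤ p ^ (a + e) := Nat.pow_le_pow_right hp (by omega)
  have hA1 : 1 ≤ A := by
    rcases Nat.eq_zero_or_pos A with rfl | h
    · simp at hA
    · exact h
  refine hc.gap hV (b := a + e) (by omega) (lt_of_le_of_ne ?_ fun h => hN _ h.symm) ?_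
  · calc p ^ (a + e) ≤ A * p ^ (a + e) := Nat.le_mul_of_pos_left _ hA1
      _ ≤ N := le_trans (Nat.le_add_right _ _) hN'.ge
  · rw [hN', add_comm, Nat.add_mul_mod_self_right, Nat.mod_eq_of_lt (by omega)]
    exact hlt

/-- The digits of N tie the coefficients at two powers of p. -/
theorem IsCocycle.digit_rel (hc : IsCocycle N c) {a b : ℕ} (hab : a < b) (hb : p ^ b < N)
    (hd : N / p ^ a % p ≠ 0) :
    (N / p ^ b) • c (p ^ a) = (N / p ^ a) • c (p ^ b) := by
  have hp := hpf.out.pos
  have ha : 0 < p ^ a := pow_pos hp a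
  have hlt : p ^ a < p ^ b := Nat.pow_lt_pow_right hpf.out.one_lt hab
  have hmod : p ^ a ≤ N % p ^ b := by
    by_contra h
    have h' := not_le.1 h
    refine hd ?_
    have e : N = N / p ^ b * p ^ b + N % p ^ b := (Nat.div_add_mod' N _).symm
    rw [e, show b = a + (b - a - 1) + 1 by omega, pow_succ, pow_add,
      show ∀ x y z w r : ℕ, x * (y * z * w) + r = r + (x * z * w) * y from fun _ _ _ _ _ => by ring,
      Nat.add_mul_div_right _ _ ha, Nat.div_eq_of_lt, zero_add, Nat.mul_mod_left]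
    rw [← pow_add, ← pow_succ, show a + (b - a - 1) + 1 = b by omega]
    exact h'
  have hN := Nat.div_add_mod' N (p ^ b)
  have hge : p ^ b ≤ N / p ^ b * p ^ b :=
    Nat.le_mul_of_pos_left _ ((Nat.one_le_div_iff (by omega)).2 hb.le)
  have key : (N - p ^ b).choose (p ^ a) • c (p ^ b) =
      (N - p ^ a).choose (p ^ b) • c (p ^ a) := by
    rcases Nat.eq_or_lt_of_le (show p ^ a + p ^ b ≤ N by omega) with he | hl
    · rw [show N - p ^ b = p ^ a by omega, show N - p ^ a = p ^ b by omega, Nat.choose_self,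
        Nat.choose_self, one_nsmul, one_nsmul]
      exact (hc.symm _ _ ha (by omega) he).symm
    · have h := hc.rel (p ^ a) (N - p ^ a - p ^ b) (p ^ b) ha (by omega) (by omega) (by omega)
      rw [show p ^ a + (N - p ^ a - p ^ b) = N - p ^ b by omega,
        show N - p ^ a - p ^ b + p ^ b = N - p ^ a by omega,
        hc.symm (N - p ^ b) (p ^ b) (by omega) (by omega) (by omega),
        hc.symm (N - p ^ a) (p ^ a) (by omega) ha (by omega)] at h
      rw [h, Nat.choose_symm_of_eq_add (b := p ^ b) (by omega)]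
  rw [nsmul_congr hV (choose_pow (N - p ^ b) a), nsmul_congr hV (choose_pow (N - p ^ a) b)] at key
  have e1 : (N - p ^ a) / p ^ b = N / p ^ b := by
    have hlt2 : N % p ^ b < p ^ b := Nat.mod_lt _ (by omega)
    rw [show N - p ^ a = N % p ^ b - p ^ a + N / p ^ b * p ^ b by omega,
      Nat.add_mul_div_right _ _ (by omega), Nat.div_eq_of_lt (by omega), zero_add]
  have e2 : (N - p ^ b) / p ^ a ≡ N / p ^ a [MOD p] := by
    have hpow : p ^ b = p ^ (b - a - 1) * p * p ^ a := by
      rw [← pow_succ, ← pow_add]; congr 1; omega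
    have e : N / p ^ a = (N - p ^ b) / p ^ a + p ^ (b - a - 1) * p := by
      conv_lhs => rw [← Nat.sub_add_cancel hb.le, hpow, Nat.add_mul_div_right _ _ ha]
      rw [← hpow]
    show _ % p = _ % p
    rw [e, Nat.add_mul_mod_self_right]
  rw [e1, nsmul_congr hV e2] at key
  exact key.symm

omit hV in
theorem IsCocycle.sub {c' : ℕ → V} (hc : IsCocycle N c) (hc' : IsCocycle N c') :
    IsCocycle N fun j => c j - c' j :=
  ⟨fun i j hi hj h => by simp only [hc.symm i j hi hj h, hc'.symm i j hi hj h],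
    fun i j k hi hj hk h => by simp only [smul_sub, hc.rel i j k hi hj hk h, hc'.rel i j k hi hj hk h]⟩

omit hV hpf in
theorem isCocycle_choose (N : ℕ) (x : V) : IsCocycle N fun j => N.choose j • x := by
  refine ⟨fun i j _ _ h => by simp only [Nat.choose_symm_of_eq_add h.symm], fun i j k _ _ _ h => ?_⟩
  simp only [← mul_nsmul']
  congr 1
  subst h
  rw [mul_comm, Nat.choose_mul (by omega) , Nat.choose_symm_of_eq_add (b := i) (show i + j + k = (j + k) + i by omega)]
  rw [show i + j + k - i = j + k by omega, show i + j - i = j by omega, mul_comm]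

/-- In degree a power of p a cocycle is fixed by its coefficient at the previous power. -/
theorem IsCocycle.of_pow {k : ℕ} (hc : IsCocycle (p ^ k) c) :
    ∀ j, 1 ≤ j → j < p ^ k → c j = ((p ^ k).choose j / p) • c (p ^ (k - 1)) := by
  intro j hj hjk
  have hp := hpf.out
  have hk : 1 ≤ k := by
    rcases Nat.eq_zero_or_pos k with rfl | h
    · simp at hjk; omega
    · exact h
  set x := c (p ^ (k - 1))
  have hdv : ∀ i, 1 ≤ i → i < p ^ k → (p ^ k).choose i = p * ((p ^ k).choose i / p) := fun i h1 h2 =>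
    (Nat.mul_div_cancel' (hp.dvd_choose_pow (by omega) h2.ne)).symm
  have hc' : IsCocycle (p ^ k) fun i => ((p ^ k).choose i / p) • x := by
    refine ⟨fun i i' _ _ h => ?_, fun a b d ha hb hd h => ?_⟩
    · simp only [Nat.choose_symm_of_eq_add h.symm]
    simp only [← mul_nsmul']
    congr 1
    apply Nat.eq_of_mul_eq_mul_left hp.pos
    rw [mul_left_comm, ← hdv (a + b) (by omega) (by omega), mul_left_comm p,
      ← hdv (b + d) (by omega) (by omega), ← h, mul_comm, Nat.choose_mul (by omega),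
      Nat.choose_symm_of_eq_add (b := a) (show a + b + d = (b + d) + a by omega),
      show a + b + d - a = b + d by omega, show a + b - a = b by omega, mul_comm]
  have hz := (hc.sub hc').reduce hV hj hjk fun a ha => ?_
  · exact sub_eq_zero.1 hz
  rcases Nat.lt_or_ge a (k - 1) with hak | hak
  · refine (hc.sub hc').gap hV (b := k - 1) hak (Nat.pow_lt_pow_right hp.one_lt (by omega)) ?_
    rw [Nat.mod_eq_zero_of_dvd (Nat.pow_dvd_pow p (by omega))]
    exact pow_pos hp.pos a
  · have : a < k := (Nat.pow_lt_pow_iff_right hp.one_lt).1 ha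
    obtain rfl : a = k - 1 := by omega
    simp only [nsmul_congr hV (choose_div_pow hk), one_nsmul, x, sub_self]

/-- In any other degree a cocycle is a multiple of the binomial form. -/
theorem IsCocycle.of_not_pow (hc : IsCocycle N c) (hN : ∀ k, N ≠ p ^ k) :
    ∃ x, ∀ j, 1 ≤ j → j < N → c j = N.choose j • x := by
  have hp := hpf.out
  rcases Nat.lt_or_ge N 2 with hN2 | hN2
  · exact ⟨0, fun j h1 h2 => by omega⟩
  obtain ⟨t, A, hA, hNA⟩ :=
    Nat.exists_eq_pow_mul_and_not_dvd (n := N) (by omega) p hp.ne_one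
  have hA2 : 2 ≤ A := by
    rcases A with _ | _ | A
    · simp at hA
    · exact absurd (by simpa using hNA) (hN t)
    · omega
  have ht : p ^ t < N := hNA ▸ lt_mul_of_one_lt_right (pow_pos hp.pos t) hA2
  have hdiv : N / p ^ t = A := by rw [hNA, Nat.mul_div_cancel_left _ (pow_pos hp.pos t)]
  obtain ⟨B, -, hB⟩ := Nat.exists_mul_mod_eq_one_of_coprime
    ((Nat.Prime.coprime_iff_not_dvd hp).2 hA).symm hp.one_lt
  refine ⟨B • c (p ^ t), fun j hj hjN => ?_⟩
  have hd := hc.sub (isCocycle_choose N (B • c (p ^ t)))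
  have hzt : c (p ^ t) - N.choose (p ^ t) • B • c (p ^ t) = 0 := by
    rw [nsmul_congr hV (choose_pow N t), hdiv, ← mul_nsmul']
    have h1 : A * B ≡ 1 [MOD p] := by
      show A * B % p = 1 % p
      rw [hB, Nat.one_mod_eq_one.2 hp.one_lt.ne']
    rw [nsmul_congr hV h1, one_nsmul, sub_self]
  refine sub_eq_zero.1 (hd.reduce hV hj hjN fun a ha => ?_)
  by_cases hda : N / p ^ a % p = 0
  · exact hd.zero_digit hV hN ha hda
  have htA : N / p ^ t % p ≠ 0 := by rw [hdiv]; exact fun h => hA (Nat.dvd_of_mod_eq_zero h)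
  rcases lt_trichotomy a t with hat | rfl | hat
  · refine eq_zero_of_nsmul hV hA ?_
    have h := hd.digit_rel hV hat ht hda
    rw [hdiv, hzt, smul_zero] at h
    exact h
  · exact hzt
  · refine eq_zero_of_nsmul hV hA ?_
    have h := hd.digit_rel hV hat ha htA
    rw [hdiv, hzt, smul_zero] at h
    exact h.symm

end Lemma

/-- The subgroup killed by p carrying a family killed by p. -/
theorem exists_torsion {p d : ℕ} {M : Type} [AddCommGroup M] {c : ℕ → M}
    (hV : ∀ i, p • c i = 0) (hs : ∀ i, 0 < i → i < d → c i = c (d - i))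
    (hr : ∀ i j, 0 < i → 0 < j → i + j < d →
      (i + j).choose i • c (i + j) = (d - i).choose j • c i) :
    ∃ c' : ℕ → AddSubgroup.closure (Set.range c),
      (∀ i, (c' i : M) = c i) ∧ (∀ x : AddSubgroup.closure (Set.range c), p • x = 0) ∧
        IsCocycle d c' := by
  refine ⟨fun i => ⟨c i, AddSubgroup.subset_closure ⟨i, rfl⟩⟩, fun i => rfl, fun x => ?_, ?_, ?_⟩
  · obtain ⟨x, hx⟩ := x
    refine Subtype.ext ?_
    show p • x = 0
    induction hx using AddSubgroup.closure_induction with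
    | mem y hy => obtain ⟨i, rfl⟩ := hy; exact hV i
    | zero => simp
    | add x y _ _ hx hy => rw [smul_add, hx, hy, add_zero]
    | neg x _ hx => rw [smul_neg, hx, neg_zero]
  · intro i j hi hj h
    apply Subtype.ext
    simp only [hs i hi (by omega), show d - i = j by omega]
  · intro i j k hi hj hk h
    apply Subtype.ext
    show (i + j).choose i • c (i + j) = (j + k).choose j • c (j + k)
    rw [hr i j hi hj (by omega), hs (j + k) (by omega) (by omega), show d - (j + k) = i by omega,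
      show d - i = j + k by omega]

/-- The lemma of Lazard in degree a power of p. -/
theorem cocycle_zero_pow {p d k : ℕ} [Fact p.Prime] (hk : d = p ^ k) {M : Type} [AddCommGroup M]
    {c : ℕ → M} (hs : ∀ i, 0 < i → i < d → c i = c (d - i))
    (hr : ∀ i j, 0 < i → 0 < j → i + j < d →
      (i + j).choose i • c (i + j) = (d - i).choose j • c i)
    (hV : ∀ i, p • c i = 0) (hc : c (p ^ (k - 1)) = 0) (i : ℕ) (hi : 0 < i) (hid : i < d) :
    c i = 0 := by
  subst hk
  obtain ⟨c', he, hV', hc'⟩ := exists_torsion hV hs hr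
  have h0 : c' (p ^ (k - 1)) = 0 := Subtype.ext (by rw [he, hc]; rfl)
  have h := hc'.of_pow hV' i hi hid
  rw [h0, smul_zero] at h
  rw [← he, h]; rfl

/-- The lemma of Lazard in any other degree. -/
theorem cocycle_zero_not_pow {p d v : ℕ} [Fact p.Prime] (hk : ∀ j, d ≠ p ^ j)
    (hA : ¬ p ∣ d.choose (p ^ v)) (h0v : 0 < p ^ v) (hlt : p ^ v < d) {M : Type} [AddCommGroup M]
    {c : ℕ → M} (hs : ∀ i, 0 < i → i < d → c i = c (d - i))
    (hr : ∀ i j, 0 < i → 0 < j → i + j < d →
      (i + j).choose i • c (i + j) = (d - i).choose j • c i)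
    (hV : ∀ i, p • c i = 0) (hc : c (p ^ v) = 0) (i : ℕ) (hi : 0 < i) (hid : i < d) :
    c i = 0 := by
  obtain ⟨c', he, hV', hc'⟩ := exists_torsion hV hs hr
  have h0 : c' (p ^ v) = 0 := Subtype.ext (by rw [he, hc]; rfl)
  obtain ⟨x, hx⟩ := hc'.of_not_pow hV' hk
  have hx0 : x = 0 := eq_zero_of_nsmul hV' hA (by rw [← hx _ h0v hlt, h0])
  rw [← he, hx i hi hid, hx0, smul_zero]; rfl

/-- The binomial facts at the pivot and the lemma of Lazard. -/
theorem cocyclePin : CocyclePin := by
  intro p hpf d hd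
  have hp := hpf.out
  set k := Nat.log p d
  by_cases hk : d = p ^ k
  · have hk1 : 1 ≤ k := by
      rcases Nat.eq_zero_or_pos k with h | h
      · rw [h, pow_zero] at hk; omega
      · exact h
    have hlt : p ^ (k - 1) < d := hk ▸ Nat.pow_lt_pow_right hp.one_lt (by omega)
    have hpiv : piv p d = p ^ (k - 1) := if_pos hk
    have hdv : ∀ i, 0 < i → i < d → p ∣ d.choose i := fun i h1 h2 =>
      hk ▸ hp.dvd_choose_pow h1.ne' (hk ▸ h2.ne)
    have h0 : 0 < p ^ (k - 1) := pow_pos hp.pos _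
    rw [hpiv]
    refine ⟨⟨h0, hlt⟩, fun h => absurd hk h, fun _ => ⟨hdv, fun h2 => ?_⟩, ?_⟩
    · rw [pow_two] at h2
      have h := choose_div_pow (p := p) hk1
      rw [← hk] at h
      have h3 := (h.symm.dvd_iff dvd_rfl).2
        (Nat.dvd_div_of_mul_dvd h2)
      exact hp.not_dvd_one h3
    · intro M _ c hV hs hr hc i hi hid
      exact cocycle_zero_pow hk hs hr hV hc i hi hid
  · have hk' : ∀ j, d ≠ p ^ j := fun j hj => hk (by simp only [k, hj, Nat.log_pow hp.one_lt])
    set v := padicValNat p d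
    have hdiv : p ^ v ∣ d := pow_padicValNat_dvd
    have hlt : p ^ v < d := lt_of_le_of_ne (Nat.le_of_dvd (by omega) hdiv) fun h => hk' v h.symm
    have hpiv : piv p d = p ^ v := if_neg hk
    have hA : ¬ p ∣ d.choose (p ^ v) := by
      rw [(choose_pow d v).dvd_iff dvd_rfl, Nat.dvd_div_iff_mul_dvd hdiv, ← pow_succ]
      exact pow_succ_padicValNat_not_dvd (by omega)
    rw [hpiv]
    refine ⟨⟨pow_pos hp.pos _, hlt⟩, fun _ => hA, fun h => absurd h hk, ?_⟩
    intro M _ c hV hs hr hc i hi hid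
    exact cocycle_zero_not_pow hk' hA (pow_pos hp.pos _) hlt hs hr hV hc i hi hid

end Vale.Agent.P217.Univ
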