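import Vale.Agent.P217.Sym.Defs

/-!
# P217: universality of the deformation F

Statement of Lubin-Tate universality for F, and pins for two independent parts of its proof.
-/

noncomputable section

namespace Vale.Agent.P217

open Vale.Agent.P217.Sym

/-- For every ring R complete for an ideal m containing p and every commutative law G over R
with an isomorphism γ, over R modulo m, to the reduction of F, exactly one pair (s, φ) of a ring
map from E0 and an isomorphism φ from G to the image of F lifts the given data. -/
def Universality : Prop :=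
  ∀ (p n : ℕ) [Fact p.Prime], 1 ≤ n → ∀ F : FormalGroup (E0 p n), IsUniversalDeformation p n F →
    ∀ (R : Type) [CommRing R] (m : Ideal R) [IsAdicComplete m R], (p : R) ∈ m →
      ∀ (ι : GaloisField p n →+* R ⧸ m) (G : FormalGroup R) [G.IsComm]
        (γ : PowerSeries (R ⧸ m)),
        IsLawHom (G.map (Ideal.Quotient.mk m)) ((F.map residue).map ι) γ →
          IsUnit (PowerSeries.coeff 1 γ) →
            ∃! x : (E0 p n →+* R) × PowerSeries R,
              (∀ a, Ideal.Quotient.mk m (x.1 a) = ι (residue a)) ∧
                IsUnit (PowerSeries.coeff 1 x.2) ∧ IsLawHom G (F.map x.1) x.2 ∧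
                  PowerSeries.map (Ideal.Quotient.mk m) x.2 = γ

namespace Univ

/-- The exponent whose coefficient decides a symmetric additive cocycle of degree d. -/
def piv (p d : ℕ) : ℕ :=
  if d = p ^ Nat.log p d then p ^ (Nat.log p d - 1) else p ^ padicValNat p d

/-- The binomial facts at the pivot and the lemma of Lazard: in characteristic p a symmetric
additive cocycle of degree d, given by its coefficients c, vanishes with its pivot coefficient. -/
def CocyclePin : Prop :=
  ∀ (p : ℕ) [Fact p.Prime] (d : ℕ), 2 ≤ d →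
    (0 < piv p d ∧ piv p d < d) ∧
    (d ≠ p ^ Nat.log p d → ¬ p ∣ d.choose (piv p d)) ∧
    (d = p ^ Nat.log p d → (∀ i, 0 < i → i < d → p ∣ d.choose i) ∧
      ¬ p ^ 2 ∣ d.choose (piv p d)) ∧
    ∀ (M : Type) [AddCommGroup M] (c : ℕ → M), (∀ i, p • c i = 0) →
      (∀ i, 0 < i → i < d → c i = c (d - i)) →
      (∀ i j, 0 < i → 0 < j → i + j < d →
        (i + j).choose i • c (i + j) = (d - i).choose j • c i) →
      c (piv p d) = 0 → ∀ i, 0 < i → i < d → c i = 0

/-- Ring maps out of E0 lifting a map of residue rings: exactly one for each choice of the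
images of the parameters, and it is continuous. -/
def EvalPin : Prop :=
  ∀ (p n : ℕ) [Fact p.Prime], 1 ≤ n →
    ∀ (R : Type) [CommRing R] (m : Ideal R) [IsAdicComplete m R], (p : R) ∈ m →
      ∀ ι : GaloisField p n →+* R ⧸ m,
        (∀ a : Fin (n - 1) → R, (∀ i, a i ∈ m) →
          ∃ s : E0 p n →+* R, (∀ b, Ideal.Quotient.mk m (s b) = ι (residue b)) ∧
            ∀ i, s (MvPowerSeries.X i) = a i) ∧
        ∀ s s' : E0 p n →+* R, (∀ b, Ideal.Quotient.mk m (s b) = ι (residue b)) →
          (∀ b, Ideal.Quotient.mk m (s' b) = ι (residue b)) → ∀ N : ℕ,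
          (∀ i, s (MvPowerSeries.X i) - s' (MvPowerSeries.X i) ∈ m ^ N) →
            ∀ b, s b - s' b ∈ m ^ N

/-- Universality for deformations that are equal to the reduction of F modulo m. -/
def NormalisedPin : Prop :=
  ∀ (p n : ℕ) [Fact p.Prime], 1 ≤ n → ∀ F : FormalGroup (E0 p n), IsUniversalDeformation p n F →
    ∀ (R : Type) [CommRing R] (m : Ideal R) [IsAdicComplete m R], (p : R) ∈ m →
      ∀ (ι : GaloisField p n →+* R ⧸ m) (H : FormalGroup R) [H.IsComm],
        H.map (Ideal.Quotient.mk m) = (F.map residue).map ι →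
          ∃! x : (E0 p n →+* R) × PowerSeries R,
            (∀ a, Ideal.Quotient.mk m (x.1 a) = ι (residue a)) ∧ IsLawHom H (F.map x.1) x.2 ∧
              PowerSeries.map (Ideal.Quotient.mk m) x.2 = PowerSeries.X

end Univ

end Vale.Agent.P217
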