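import Vale.Agent.P217.Univ.Defs
import Vale.Agent.P217.B.Sigma

/-!
# P217: ring maps out of E0 into a complete ring

The Witt vectors of the residue field map uniquely to every ring complete for an ideal containing p,
compatibly with a given map of residue rings; the parameters may go anywhere in the ideal.
-/

noncomputable section

namespace Vale.Agent.P217.Univ

open Ideal

variable {R : Type} [CommRing R] {p : ℕ} [Fact p.Prime] {m : Ideal R}

omit [Fact p.Prime] in
theorem pow_sub_pow_mem (hp : (p : R) ∈ m) {a b : R} {k : ℕ} (hk : 1 ≤ k) (h : a - b ∈ m ^ k) :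
    a ^ p - b ^ p ∈ m ^ (k + 1) := by
  rw [← geom_sum₂_mul, pow_succ']
  refine Ideal.mul_mem_mul ?_ h
  rw [← Ideal.Quotient.eq_zero_iff_mem, RingHom.map_geom_sum₂,
    Ideal.Quotient.eq.2 (Ideal.pow_le_self (show k ≠ 0 by omega) h), geom_sum₂_self,
    ← map_pow, ← map_natCast (Ideal.Quotient.mk m), Ideal.Quotient.eq_zero_iff_mem.2 hp, zero_mul]

omit [Fact p.Prime] in
theorem pow_pow_sub_mem (hp : (p : R) ∈ m) {a b : R} (h : a - b ∈ m) :
    ∀ N, a ^ p ^ N - b ^ p ^ N ∈ m ^ (N + 1)
  | 0 => by simpa using h
  | N + 1 => by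
    rw [pow_succ p N, pow_mul, pow_mul]
    exact pow_sub_pow_mem hp (by omega) (pow_pow_sub_mem hp h N)

theorem ghost_mem (hp : (p : R) ∈ m) (N : ℕ) (x : WittVector p R) (hx : ∀ i, x.coeff i ∈ m) :
    WittVector.ghostComponent N x ∈ m ^ (N + 1) := by
  rw [WittVector.ghostComponent_apply]
  simp only [aeval_wittPolynomial]
  refine sum_mem fun i hi => ?_
  have hi' : i ≤ N := by simpa using Finset.mem_range.1 hi |> Nat.lt_succ_iff.1
  refine Ideal.pow_le_pow_right ?_ (pow_add m i (p ^ (N - i)) ▸
    Ideal.mul_mem_mul (Ideal.pow_mem_pow hp i) (Ideal.pow_mem_pow (hx i) (p ^ (N - i))))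
  have := (Nat.lt_pow_self (Fact.out : p.Prime).one_lt (n := N - i))
  omega

/-- The ghost component on the Witt vectors of R modulo m. -/
def ghostMod (hp : (p : R) ∈ m) (N : ℕ) : WittVector p (R ⧸ m) →+* R ⧸ m ^ (N + 1) :=
  RingHom.liftOfSurjective (WittVector.map (Ideal.Quotient.mk m))
    (WittVector.map_surjective _ Ideal.Quotient.mk_surjective)
    ⟨(Ideal.Quotient.mk (m ^ (N + 1))).comp (WittVector.ghostComponent N), by
      intro x hx
      rw [RingHom.mem_ker, RingHom.comp_apply, Ideal.Quotient.eq_zero_iff_mem]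
      rw [RingHom.mem_ker, WittVector.ext_iff] at hx
      refine ghost_mem hp N x fun i => ?_
      rw [← Ideal.Quotient.eq_zero_iff_mem, ← WittVector.map_coeff, hx i, WittVector.zero_coeff]⟩

theorem ghostMod_map (hp : (p : R) ∈ m) (N : ℕ) (x : WittVector p R) :
    ghostMod hp N (WittVector.map (Ideal.Quotient.mk m) x) =
      Ideal.Quotient.mk _ (WittVector.ghostComponent N x) :=
  RingHom.liftOfSurjective_comp_apply ..

variable {k : Type} [Field k] [CharP k p] [PerfectRing k p] [IsAdicComplete m R]

/-- A ring map from the Witt vectors lifting a map of residue rings. -/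
theorem exists_witt_hom (hp : (p : R) ∈ m) (ι : k →+* R ⧸ m) :
    ∃ c : WittVector p k →+* R, ∀ w, Ideal.Quotient.mk m (c w) = ι (w.coeff 0) := by
  let φ : k →+* k := ((frobeniusEquiv k p).symm : k →+* k)
  let g : ∀ N, WittVector p k →+* R ⧸ m ^ (N + 1) := fun N =>
    (ghostMod hp N).comp (WittVector.map (ι.comp (φ ^ N)))
  have hφ : ∀ x : k, φ x ^ p = x := fun x => frobeniusEquiv_symm_pow_p k p x
  have hg : ∀ N (x : k) (t : R), Ideal.Quotient.mk m t = ι ((φ ^ N) x) →
      g N (WittVector.teichmuller p x) = Ideal.Quotient.mk _ (t ^ p ^ N) := by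
    intro N x t ht
    show ghostMod hp N (WittVector.map (ι.comp (φ ^ N)) (WittVector.teichmuller p x)) = _
    rw [WittVector.map_teichmuller, RingHom.comp_apply, ← ht, ← WittVector.map_teichmuller,
      ghostMod_map, WittVector.ghostComponent_teichmuller]
  have hcompat : ∀ {N}, (Ideal.Quotient.factorPow m (Nat.le_succ (N + 1))).comp (g (N + 1)) = g N := by
    intro N
    refine WittVector.eq_of_apply_teichmuller_eq _ _ ⟨N + 1, ?_⟩ fun x => ?_
    · rw [← map_natCast (Ideal.Quotient.mk (m ^ (N + 1))), ← map_pow,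
        Ideal.Quotient.eq_zero_iff_mem]
      exact Ideal.pow_mem_pow hp _
    · obtain ⟨t, ht⟩ := Ideal.Quotient.mk_surjective (ι ((φ ^ N) x))
      obtain ⟨t', ht'⟩ := Ideal.Quotient.mk_surjective (ι ((φ ^ (N + 1)) x))
      rw [RingHom.comp_apply, hg _ _ _ ht', hg _ _ _ ht, Ideal.Quotient.factorPow,
        Ideal.Quotient.factor_mk, pow_succ' p N, pow_mul, Ideal.Quotient.eq]
      refine pow_pow_sub_mem hp ?_ N
      rw [← Ideal.Quotient.eq, map_pow, ht', ← map_pow, ht]
      congr 1
      rw [pow_succ', RingHom.coe_mul, Function.comp_apply, hφ]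
  let c : WittVector p k →+* R :=
    IsAdicComplete.StrictMono.liftRingHom m (a := fun N => N + 1)
      (fun a b h => Nat.add_lt_add_right h 1) g (fun {N} => hcompat)
  refine ⟨c, fun w => ?_⟩
  obtain ⟨x, hx⟩ := WittVector.map_surjective (Ideal.Quotient.mk m) Ideal.Quotient.mk_surjective
    (WittVector.map ι w : WittVector p (R ⧸ m))
  have h := IsAdicComplete.StrictMono.mk_liftRingHom m (a := fun N => N + 1)
    (fun a b h => Nat.add_lt_add_right h 1) g (fun {N} => hcompat) (n := 0) w
  have h0 : g 0 w = Ideal.Quotient.mk _ (WittVector.ghostComponent 0 x) := by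
    show ghostMod hp 0 (WittVector.map (ι.comp (φ ^ 0)) w) = _
    rw [pow_zero, RingHom.one_def, RingHom.comp_id, ← hx, ghostMod_map]
  rw [h0, Ideal.Quotient.eq, zero_add, pow_one, ← Ideal.Quotient.eq] at h
  rw [h, WittVector.ghostComponent_apply, wittPolynomial_zero, MvPolynomial.aeval_X,
    ← WittVector.map_coeff, hx, WittVector.map_coeff]

variable {n : ℕ}

omit [PerfectRing k p] in
/-- Two maps out of the Witt vectors agreeing on residue rings are equal. -/
theorem witt_hom_ext (hn : 1 ≤ n) (hp : (p : R) ∈ m)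
    (c c' : WittVector p (GaloisField p n) →+* R)
    (h : ∀ w, c w - c' w ∈ m) : c = c' := by
  have hteich : ∀ x, c (WittVector.teichmuller p x) = c' (WittVector.teichmuller p x) := by
    intro x
    refine sub_eq_zero.1 (IsHausdorff.haus' (I := m) _ fun K => ?_)
    rw [SModEq.zero, smul_eq_mul, Ideal.mul_top]
    have hx : ∀ K, x ^ p ^ (n * K) = x := by
      intro K
      induction K with
      | zero => simp
      | succ K ih =>
        rw [Nat.mul_succ, pow_add, pow_mul, ih]
        have := Fintype.ofFinite (GaloisField p n)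
        conv_rhs => rw [← FiniteField.pow_card x]
        rw [← Nat.card_eq_fintype_card, GaloisField.card p n (by omega)]
    have e : WittVector.teichmuller p x ^ p ^ (n * K) = WittVector.teichmuller p x := by
      rw [← map_pow, hx]
    rw [← e, map_pow, map_pow]
    refine Ideal.pow_le_pow_right ?_ (pow_pow_sub_mem hp (h _) _)
    have : 1 * K ≤ n * K := Nat.mul_le_mul_right K hn
    omega
  refine RingHom.ext fun w => sub_eq_zero.1 (IsHausdorff.haus' (I := m) _ fun K => ?_)
  rw [SModEq.zero, smul_eq_mul, Ideal.mul_top, ← Ideal.Quotient.eq]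
  refine RingHom.congr_fun (WittVector.eq_of_apply_teichmuller_eq
    ((Ideal.Quotient.mk (m ^ K)).comp c) ((Ideal.Quotient.mk (m ^ K)).comp c') ⟨K, ?_⟩
      fun x => ?_) w
  · rw [← map_natCast (Ideal.Quotient.mk (m ^ K)), ← map_pow, Ideal.Quotient.eq_zero_iff_mem]
    exact Ideal.pow_mem_pow hp _
  · simp [hteich x]

/-- The parameters generate everything without constant term. -/
theorem sub_constants_mem (b : E0 p n) :
    b - constants (MvPowerSeries.constantCoeff b) ∈
      Ideal.span (Set.range (MvPowerSeries.X : Fin (n - 1) → E0 p n)) :=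
  B.SigmaBlock.mem_span_range_X _ (by simp [constants])

theorem residue_constants (w : WittVector p (GaloisField p n)) :
    residue (constants w) = w.coeff 0 := by
  simp [residue, constants]

/-- Ring maps out of E0 lifting a map of residue rings. -/
theorem evalPin : EvalPin := by
  intro p n _ hn R _ m _ hp ι
  refine ⟨fun a ha => ?_, fun s s' hs hs' N hX b => ?_⟩
  · obtain ⟨c, hc⟩ := exists_witt_hom (k := GaloisField p n) hp ι
    let : WithIdeal R := ⟨m⟩
    obtain ⟨_, _⟩ := (IsAdic.isAdicComplete_iff (R := R) (I := m) rfl).mp ‹_›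
    let : UniformSpace (WittVector p (GaloisField p n)) := ⊥
    have : DiscreteUniformity (WittVector p (GaloisField p n)) := ⟨rfl⟩
    have hev : MvPowerSeries.HasEval a :=
      { hpow := fun i => WithIdeal.isTopologicallyNilpotent_of_mem (ha i)
        tendsto_zero := by simp [Filter.cofinite_eq_bot] }
    let s : E0 p n →+* R := MvPowerSeries.eval₂Hom (φ := c) continuous_of_discreteTopology hev
    have hsC : ∀ w, s (constants w) = c w := fun w => by
      simp [s, MvPowerSeries.coe_eval₂Hom, constants]
    have hsX : ∀ i, s (MvPowerSeries.X i) = a i := fun i => by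
      simp [s, MvPowerSeries.coe_eval₂Hom]
    refine ⟨s, fun b => ?_, hsX⟩
    have hle : Ideal.span (Set.range (MvPowerSeries.X : Fin (n - 1) → E0 p n)) ≤ m.comap s := by
      rw [Ideal.span_le]
      rintro _ ⟨i, rfl⟩
      simpa [hsX] using ha i
    have h1 := hle (sub_constants_mem b)
    rw [Ideal.mem_comap, map_sub, hsC, ← Ideal.Quotient.eq] at h1
    rw [h1, hc]
    congr 1
  · have hc : ∀ w, s (constants w) = s' (constants w) := RingHom.congr_fun <| witt_hom_ext hn hp
      (s.comp constants) (s'.comp constants) fun w => by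
        rw [← Ideal.Quotient.eq, RingHom.comp_apply, RingHom.comp_apply, hs, hs']
    have hmem : ∀ i, s' (MvPowerSeries.X i) ∈ m := fun i => by
      rw [← Ideal.Quotient.eq_zero_iff_mem, hs']
      simp [residue]
    suffices h : ∀ j, j ≤ N → ∀ b, s b - s' b ∈ m ^ j from h N le_rfl b
    intro j
    induction j with
    | zero => simp
    | succ j ih =>
      intro hj b
      have h1 : ∀ y ∈ Ideal.span (Set.range (MvPowerSeries.X : Fin (n - 1) → E0 p n)),
          s y - s' y ∈ m ^ (j + 1) ∧ s' y ∈ m := by
        intro y hy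
        induction hy using Submodule.span_induction with
        | mem y hy =>
          obtain ⟨i, rfl⟩ := hy
          exact ⟨Ideal.pow_le_pow_right hj (hX i), hmem i⟩
        | zero => simp
        | add x y _ _ hx hy =>
          rw [map_add, map_add, add_sub_add_comm]
          exact ⟨add_mem hx.1 hy.1, add_mem hx.2 hy.2⟩
        | smul r x _ hx =>
          rw [smul_eq_mul, map_mul, map_mul]
          refine ⟨?_, Ideal.mul_mem_left _ _ hx.2⟩
          rw [show s r * s x - s' r * s' x = s r * (s x - s' x) + (s r - s' r) * s' x by ring]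
          refine add_mem (Ideal.mul_mem_left _ _ hx.1) ?_
          rw [pow_succ]
          exact Ideal.mul_mem_mul (ih (by omega) r) hx.2
      have h2 := (h1 _ (sub_constants_mem b)).1
      rwa [map_sub, map_sub, hc, sub_sub_sub_cancel_right] at h2

end Vale.Agent.P217.Univ
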