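import Vale.Agent.P217.A.Coeff
import Vale.Agent.P217.Defs

/-!
# P217, universality: the law below degree p ^ n

Below degree p ^ n the constant part of F is X + Y and the part linear in the parameter u (k + 1) is
(X ^ q + Y ^ q - (X + Y) ^ q) / p with q = p ^ (k + 1).
-/

noncomputable section

namespace Vale.Agent.P217.Univ

open MvPowerSeries TrivSqZeroExt

variable {p n : ℕ} [Fact p.Prime]

theorem coeff_single_one_mul {σ R : Type} [CommRing R] (i : σ) (f g : MvPowerSeries σ R) :
    coeff (Finsupp.single i 1) (f * g) =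
      constantCoeff f * coeff (Finsupp.single i 1) g +
        coeff (Finsupp.single i 1) f * constantCoeff g := by
  classical
  rw [coeff_mul, show Finset.HasAntidiagonal.antidiagonal (Finsupp.single i 1) =
    {((0 : σ →₀ ℕ), Finsupp.single i 1), (Finsupp.single i 1, 0)} by
      rw [Finsupp.antidiagonal_single,
        show (Finset.HasAntidiagonal.antidiagonal 1 : Finset (ℕ × ℕ)) = {(0, 1), (1, 0)} from rfl]
      simp, Finset.sum_pair (by simp)]
  simp

variable (p n) in
/-- The fractions of the Witt vectors. -/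
abbrev KW : Type := FractionRing (WittVector p (GaloisField p n))

/-- Constant and linear part in one variable, as a dual number. -/
def jet (k : Fin (n - 1)) : E0 p n →+* DualNumber (KW p n) where
  toFun a := inl (algebraMap _ _ (constantCoeff a)) +
    inr (algebraMap _ _ (coeff (Finsupp.single k 1) a))
  map_one' := by classical ext <;> simp [coeff_one]
  map_mul' a b := by
    ext
    · simp
    · simp only [snd_mul, fst_add, fst_inl, fst_inr, snd_add, snd_inl, snd_inr, smul_eq_mul,
        op_smul_eq_mul, map_mul, map_add, coeff_single_one_mul, add_zero, zero_add]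
  map_zero' := by ext <;> simp
  map_add' a b := by
    ext
    · simp
    · simp only [snd_add, snd_inl, snd_inr, map_add, zero_add]

theorem fst_jet (k : Fin (n - 1)) (a : E0 p n) :
    fst (jet k a) = algebraMap _ _ (constantCoeff a) := by
  simp [jet]

theorem snd_jet (k : Fin (n - 1)) (a : E0 p n) :
    snd (jet k a) = algebraMap _ _ (coeff (Finsupp.single k 1) a) := by
  simp only [jet, RingHom.coe_mk, MonoidHom.coe_mk, OneHom.coe_mk, snd_add, snd_inl, snd_inr,
    zero_add]

theorem p_ne_zero_KW : (p : KW p n) ≠ 0 := by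
  rw [← map_natCast (algebraMap (WittVector p (GaloisField p n)) (KW p n)) p]
  exact fun h => WittVector.p_nonzero p (GaloisField p n)
    (IsFractionRing.injective (WittVector p (GaloisField p n)) _ (h.trans (map_zero _).symm))

theorem jet_vv (k : Fin (n - 1)) {i : ℕ} (hi : i < n) :
    jet k (vv p n i) = inr (if i = k.1 + 1 then 1 else 0) := by
  classical
  by_cases h : 1 ≤ i
  · rw [vv, dif_pos ⟨h, hi⟩]
    ext
    · simp only [fst_jet, constantCoeff_X, map_zero, fst_inr]
    · simp only [snd_jet, coeff_X, snd_inr, Finsupp.single_eq_single_iff]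
      by_cases hk : i = k.1 + 1
      · rw [if_pos hk, if_pos, map_one]
        exact Or.inl ⟨Fin.ext (by simp only; omega), trivial⟩
      · rw [if_neg, if_neg hk, map_zero]
        rintro (⟨e, -⟩ | ⟨h1, -⟩)
        · exact hk (by have := congrArg Fin.val e; simp only at this; omega)
        · exact one_ne_zero h1
  · have h0 : i = 0 := by omega
    subst h0
    rw [vv, dif_neg (by omega), if_neg (by omega), map_zero, if_neg (by omega)]
    rfl

theorem isUnit_jet_p (k : Fin (n - 1)) : IsUnit (jet k (p : E0 p n)) := by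
  rw [map_natCast, TrivSqZeroExt.isUnit_iff_isUnit_fst, fst_natCast]
  exact isUnit_iff_ne_zero.2 p_ne_zero_KW

/-- The jet after inverting p. -/
def jetInv (k : Fin (n - 1)) : E0Inv p n →+* DualNumber (KW p n) :=
  IsLocalization.Away.lift (p : E0 p n) (isUnit_jet_p k)

theorem jetInv_algebraMap (k : Fin (n - 1)) (b : E0 p n) :
    jetInv k (algebraMap _ _ b) = jet k b :=
  IsLocalization.Away.lift_eq (p : E0 p n) (isUnit_jet_p k) b

theorem jetInv_logCoeff (k : Fin (n - 1)) : ∀ j, j < n → jetInv k (logCoeff p n j) =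
    if j = 0 then 1 else if j = k.1 + 1 then inr (p : KW p n)⁻¹ else 0 := by
  have hp : 1 < p := (Fact.out : p.Prime).one_lt
  have hpu : IsUnit (p : DualNumber (KW p n)) := by
    have := isUnit_jet_p (p := p) (n := n) k
    rwa [map_natCast] at this
  intro j
  induction j using Nat.strong_induction_on with
  | _ j ih =>
    intro hj
    rcases j with _ | j
    · rw [logCoeff.eq_1, map_one, if_pos rfl]
    rw [if_neg (Nat.succ_ne_zero j)]
    refine hpu.mul_left_cancel ?_
    have h1 := congrArg (jetInv k) ((ltData p n).M_succ j)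
    simp only [map_mul, map_natCast, map_sum, map_pow] at h1
    refine h1.trans ?_
    rw [Finset.sum_eq_single 0]
    · show jetInv k (logCoeff p n 0) *
        jetInv k (algebraMap _ _ (vv p n (j + 1 - 0))) ^ p ^ 0 = _
      rw [logCoeff.eq_1, map_one, one_mul, pow_zero, pow_one, jetInv_algebraMap, Nat.sub_zero,
        jet_vv k hj]
      split_ifs
      · ext
        · simp only [fst_inr, fst_mul, mul_zero]
        · simp only [snd_inr, snd_mul, fst_natCast, snd_natCast, fst_inr, smul_eq_mul,
            op_smul_eq_mul, zero_mul, add_zero]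
          exact (mul_inv_cancel₀ p_ne_zero_KW).symm
      · rw [inr_zero, mul_zero]
    · intro i hi hi0
      show _ * jetInv k (algebraMap _ _ (vv p n (j + 1 - i))) ^ p ^ i = _
      have h2 : 2 ≤ p ^ i := le_trans hp (Nat.le_self_pow hi0 p)
      rw [jetInv_algebraMap, jet_vv k (by have := Finset.mem_range.1 hi; omega),
        pow_eq_zero_of_le h2 (by rw [sq]; exact inr_mul_inr _ _ _), mul_zero]
    · intro h0
      exact absurd (Finset.mem_range.2 (Nat.succ_pos j)) h0

theorem jetInv_logSeries (k : Fin (n - 1)) {N : ℕ} (hN : N < p ^ n) :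
    PowerSeries.coeff N (PowerSeries.map (jetInv k) (logSeries p n)) =
      PowerSeries.coeff N (PowerSeries.X +
        PowerSeries.C (inr (p : KW p n)⁻¹) * PowerSeries.X ^ p ^ (k.1 + 1)) := by
  have hp : 1 < p := (Fact.out : p.Prime).one_lt
  have hq : 2 ≤ p ^ (k.1 + 1) := le_trans hp (Nat.le_self_pow (by omega) p)
  rw [PowerSeries.coeff_map, logSeries, PowerSeries.coeff_mk, map_add, PowerSeries.coeff_X,
    PowerSeries.coeff_C_mul, PowerSeries.coeff_X_pow]
  by_cases h : N = p ^ Nat.log p N
  · rw [if_pos h]
    have hl : Nat.log p N < n := (Nat.pow_lt_pow_iff_right hp).1 (h ▸ hN)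
    rw [jetInv_logCoeff k _ hl]
    by_cases h0 : Nat.log p N = 0
    · rw [h0, pow_zero] at h
      rw [if_pos h0, if_pos h, if_neg (by omega), mul_zero, add_zero]
    · have h2 : 2 ≤ p ^ Nat.log p N := le_trans hp (Nat.le_self_pow h0 p)
      rw [if_neg h0, if_neg (show N ≠ 1 by omega), zero_add]
      by_cases h3 : Nat.log p N = k.1 + 1
      · rw [if_pos h3, if_pos (by rw [← h3]; exact h), mul_one]
      · rw [if_neg h3, if_neg, mul_zero]
        intro e
        exact h3 (Nat.pow_right_injective hp (h.symm.trans e))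
  · rw [if_neg h, map_zero, if_neg (fun e => h (by rw [e]; simp)),
      if_neg (fun e => h (by rw [e, Nat.log_pow hp])), mul_zero, add_zero]

/-- A series with logarithm X + c X ^ q up to degree D, c ^ 2 = 0, below degree D. -/
theorem low_aux {R : Type} [CommRing R] {c : R} (hcc : c * c = 0) {q D : ℕ} (hq : 2 ≤ q)
    {f : PowerSeries R} (hf : ∀ N, N < D → PowerSeries.coeff N f =
      PowerSeries.coeff N (PowerSeries.X + PowerSeries.C c * PowerSeries.X ^ q))
    {P : MvPowerSeries (Fin 2) R} (hP : P.constantCoeff = 0)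
    (hlog : PowerSeries.subst P f = PowerSeries.subst (X 0 : MvPowerSeries (Fin 2) R) f +
      PowerSeries.subst (X 1 : MvPowerSeries (Fin 2) R) f) :
    ∀ b : Fin 2 →₀ ℕ, b.degree < D →
      coeff b P = coeff b (X 0 + X 1 + C c * (X 0 ^ q + X 1 ^ q - (X 0 + X 1) ^ q)) := by
  have key : ∀ (Q : MvPowerSeries (Fin 2) R), Q.constantCoeff = 0 →
      ∀ b : Fin 2 →₀ ℕ, b.degree < D →
      coeff b (PowerSeries.subst Q f) = coeff b Q + c * coeff b (Q ^ q) := by
    intro Q hQ b hb
    have hs := PowerSeries.HasSubst.of_constantCoeff_zero hQ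
    have e : coeff b (PowerSeries.subst Q f) =
        coeff b (PowerSeries.subst Q (PowerSeries.X + PowerSeries.C c * PowerSeries.X ^ q)) := by
      rw [PowerSeries.coeff_subst hs, PowerSeries.coeff_subst hs]
      refine finsum_congr fun N => ?_
      by_cases hN : N < D
      · rw [hf N hN]
      · rw [FE.coeff_pow_eq_zero_of_degree_lt hQ (by omega), smul_zero, smul_zero]
    rw [e, PowerSeries.subst_add hs, PowerSeries.subst_mul hs, PowerSeries.subst_pow hs,
      PowerSeries.subst_X hs, PowerSeries.subst_C, map_add, coeff_C_mul]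
  set S : MvPowerSeries (Fin 2) R := X 0 + X 1
  set T : MvPowerSeries (Fin 2) R := S + C c * (X 0 ^ q + X 1 ^ q - S ^ q) with hTdef
  have hT : T.constantCoeff = 0 := by simp [T, S, zero_pow (show q ≠ 0 by omega)]
  suffices main : ∀ d b, Finsupp.degree b = d → d < D → coeff b P = coeff b T from
    fun b hb => main _ b rfl hb
  intro d
  induction d using Nat.strong_induction_on with
  | _ d ih =>
    intro b hb hd
    have h1 := congrArg (coeff b) hlog
    rw [map_add, key P hP b (hb ▸ hd), key _ (constantCoeff_X 0) b (hb ▸ hd),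
      key _ (constantCoeff_X 1) b (hb ▸ hd)] at h1
    have h2 : c * coeff b (P ^ q) = c * coeff b (S ^ q) := by
      rw [FE.coeff_pow_congr hP hT (fun b' hb' => ih b'.degree (hb ▸ hb') b' rfl
        (by omega)) hq le_rfl, ← coeff_C_mul, ← coeff_C_mul]
      congr 1
      obtain ⟨w, hw⟩ := sub_dvd_pow_sub_pow T S q
      rw [← sub_eq_zero, ← mul_sub, hw, hTdef, add_sub_cancel_left, ← mul_assoc, ← mul_assoc,
        ← map_mul, hcc, map_zero, zero_mul, zero_mul]
    rw [h2] at h1
    rw [hTdef]
    simp only [S, map_add, map_sub, coeff_C_mul] at h1 ⊢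
    linear_combination h1

/-- The law below degree p ^ n. -/
theorem law_low {F : FormalGroup (E0 p n)} (hF : IsUniversalDeformation p n F) (k : Fin (n - 1))
    {a : Fin 2 →₀ ℕ} (ha : a.degree < p ^ n) :
    constantCoeff (coeff a F.toPowerSeries) =
        coeff a (X 0 + X 1 : MvPowerSeries (Fin 2) (WittVector p (GaloisField p n))) ∧
      (p : WittVector p (GaloisField p n)) * coeff (Finsupp.single k 1) (coeff a F.toPowerSeries) =
        coeff a (X 0 ^ p ^ (k.1 + 1) + X 1 ^ p ^ (k.1 + 1) - (X 0 + X 1) ^ p ^ (k.1 + 1) :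
          MvPowerSeries (Fin 2) (WittVector p (GaloisField p n))) := by
  have hlog := congrArg (MvPowerSeries.map (jetInv k)) hF
  rw [map_add, PowerSeries.map_subst (.of_constantCoeff_zero (FormalGroup.zero_constantCoeff _)),
    PowerSeries.map_subst (.of_constantCoeff_zero (constantCoeff_X _)),
    PowerSeries.map_subst (.of_constantCoeff_zero (constantCoeff_X _)), MvPowerSeries.map_X,
    MvPowerSeries.map_X] at hlog
  have hPJ : MvPowerSeries.map (jetInv k)
      (F.map (algebraMap (E0 p n) (E0Inv p n))).toPowerSeries =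
      MvPowerSeries.map (jet k) F.toPowerSeries := by
    ext1 b; simp [FormalGroup.map_toPowerSeries, jetInv_algebraMap]
  rw [hPJ] at hlog
  have e := low_aux (inr_mul_inr (KW p n) _ _)
    (le_trans (Fact.out : p.Prime).one_lt (Nat.le_self_pow (Nat.succ_ne_zero k.1) p))
    (fun N hN => jetInv_logSeries k hN)
    (by rw [MvPowerSeries.constantCoeff_map, F.zero_constantCoeff, map_zero]) hlog a ha
  let i0 : WittVector p (GaloisField p n) →+* DualNumber (KW p n) :=
    (inlHom (KW p n) (KW p n)).comp (algebraMap _ (KW p n))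
  have hTW : ∀ (c : DualNumber (KW p n)) (q : ℕ), (X 0 + X 1 + C c * (X 0 ^ q + X 1 ^ q -
      (X 0 + X 1) ^ q) : MvPowerSeries (Fin 2) (DualNumber (KW p n))) =
      MvPowerSeries.map i0 (X 0 + X 1) +
      C c * MvPowerSeries.map i0 (X 0 ^ q + X 1 ^ q - (X 0 + X 1) ^ q) := fun c q => by
    simp only [map_add, map_sub, map_pow, MvPowerSeries.map_X]
  rw [hTW, map_add, coeff_C_mul, coeff_map, coeff_map, coeff_map] at e
  refine ⟨IsFractionRing.injective (WittVector p (GaloisField p n)) (KW p n) ?_,
    IsFractionRing.injective (WittVector p (GaloisField p n)) (KW p n) ?_⟩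
  · have := congrArg fst e
    simp only [fst_jet, i0, RingHom.comp_apply, inlHom_apply, fst_add, fst_inl, fst_mul, fst_inr,
      zero_mul, add_zero] at this
    exact this
  · have := congrArg snd e
    simp only [snd_jet, i0, RingHom.comp_apply, inlHom_apply, snd_add, snd_inl, snd_mul, fst_inl,
      fst_inr, snd_inr, smul_eq_mul, op_smul_eq_mul, zero_add, mul_zero] at this
    rw [map_mul, map_natCast, this, ← mul_assoc, mul_inv_cancel₀ p_ne_zero_KW, one_mul]

end Vale.Agent.P217.Univ
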