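import Mathlib

/-!
# P217, universality: series with square-zero coefficients

I and m are ideals with I ≤ m and I m = 0. A series with coefficients in I is small. A law is
linear in a small second argument, and the error of a map of laws that is a homomorphism modulo I
is a symmetric cocycle.
-/

noncomputable section

namespace Vale.Agent.P217.Univ

open MvPowerSeries Finset

variable {A : Type} [CommRing A] {σ τ : Type}

/-- I ≤ m and I m = 0. -/
structure Sq (I m : Ideal A) : Prop where
  le : I ≤ m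
  mul : ∀ {e x}, e ∈ I → x ∈ m → e * x = 0

/-- All coefficients lie in I. -/
def Sm (I : Ideal A) (f : MvPowerSeries σ A) : Prop := ∀ d, coeff d f ∈ I

theorem sm_iff (I : Ideal A) (f : MvPowerSeries σ A) :
    Sm I f ↔ MvPowerSeries.map (Ideal.Quotient.mk I) f = 0 := by
  simp [Sm, MvPowerSeries.ext_iff, coeff_map, Ideal.Quotient.eq_zero_iff_mem]

theorem sm_sub_iff (I : Ideal A) (f g : MvPowerSeries σ A) :
    Sm I (f - g) ↔
      MvPowerSeries.map (Ideal.Quotient.mk I) f = MvPowerSeries.map (Ideal.Quotient.mk I) g := by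
  rw [sm_iff, map_sub, sub_eq_zero]

variable {I m : Ideal A}

theorem Sm.mono {f : MvPowerSeries σ A} (h : Sm I f) (hle : I ≤ m) : Sm m f := fun d => hle (h d)

theorem sm_zero : Sm I (0 : MvPowerSeries σ A) := fun d => by simp

theorem Sm.add {f g : MvPowerSeries σ A} (hf : Sm I f) (hg : Sm I g) : Sm I (f + g) := fun d => by
  rw [map_add]; exact I.add_mem (hf d) (hg d)

theorem Sm.neg {f : MvPowerSeries σ A} (hf : Sm I f) : Sm I (-f) := fun d => by
  rw [map_neg]; exact I.neg_mem (hf d)

theorem Sm.sub {f g : MvPowerSeries σ A} (hf : Sm I f) (hg : Sm I g) : Sm I (f - g) := by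
  rw [sub_eq_add_neg]; exact hf.add hg.neg

theorem Sm.mul_left {f : MvPowerSeries σ A} (hf : Sm I f) (g : MvPowerSeries σ A) :
    Sm I (f * g) := by
  rw [sm_iff] at hf ⊢; rw [map_mul, hf, zero_mul]

theorem Sm.subst {E : MvPowerSeries σ A} (hE : Sm I E) {w : σ → MvPowerSeries τ A}
    (hw : HasSubst w) : Sm I (MvPowerSeries.subst w E) := by
  rw [sm_iff] at hE ⊢
  rw [map_subst hw, hE, ← coe_substAlgHom (hw.map _), map_zero]

theorem Sq.mul_series (h : Sq I m) {e x : MvPowerSeries σ A} (he : Sm I e) (hx : Sm m x) :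
    e * x = 0 := by
  classical
  ext d
  rw [coeff_mul, map_zero]
  exact sum_eq_zero fun _ _ => h.mul (he _) (hx _)

theorem Sq.sq_zero (h : Sq I m) {e : MvPowerSeries σ A} (he : Sm I e) : e ^ 2 = 0 := by
  rw [sq]; exact h.mul_series he (he.mono h.le)

theorem Sq.mul_congr (h : Sq I m) {e f g : MvPowerSeries σ A} (he : Sm I e) (hfg : Sm m (f - g)) :
    e * f = e * g := by
  rw [← sub_eq_zero, ← mul_sub, h.mul_series he hfg]

theorem Sq.hasSubst (h : Sq I m) {e : MvPowerSeries σ A} (he : Sm I e) :
    PowerSeries.HasSubst e :=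
  ⟨2, by rw [← map_pow, h.sq_zero he, map_zero]⟩

/-- A small series sees its arguments only modulo m. -/
theorem Sq.subst_congr (h : Sq I m) {E : MvPowerSeries σ A} (hE : Sm I E)
    {w w' : σ → MvPowerSeries τ A} (hw : HasSubst w) (hw' : HasSubst w')
    (hww : ∀ i, Sm m (w i - w' i)) : MvPowerSeries.subst w E = MvPowerSeries.subst w' E := by
  ext e
  rw [coeff_subst hw, coeff_subst hw']
  refine finsum_congr fun d => ?_
  rw [← sub_eq_zero, ← smul_sub, smul_eq_mul]
  refine h.mul (hE d) ?_
  rw [← Ideal.Quotient.eq, ← coeff_map, ← coeff_map]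
  congr 1
  simp only [Finsupp.prod, map_prod, map_pow, fun i => (sm_sub_iff m _ _).1 (hww i)]

/-! ## Laws and small arguments -/

theorem constantCoeff_series_eq (f : PowerSeries A) :
    MvPowerSeries.constantCoeff f = PowerSeries.constantCoeff f := rfl

theorem hasSubst_two {a b : MvPowerSeries σ A} (ha : PowerSeries.HasSubst a)
    (hb : PowerSeries.HasSubst b) : HasSubst ![a, b] :=
  hasSubst_of_constantCoeff_nilpotent fun i => by
    fin_cases i
    · exact ha
    · exact hb

/-- The derivative in the second argument along the axis. -/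
def dY (G : FormalGroup A) : PowerSeries A :=
  PowerSeries.mk fun i => coeff (Finsupp.single 0 i + Finsupp.single 1 1) G.toPowerSeries

theorem constantCoeff_dY (G : FormalGroup A) : PowerSeries.constantCoeff (dY G) = 1 := by
  rw [← PowerSeries.coeff_zero_eq_constantCoeff_apply, dY, PowerSeries.coeff_mk]
  simp [G.lin_coeff_Y]

theorem coeff_axis (G : FormalGroup A) (k : ℕ) :
    coeff (Finsupp.single 0 k) G.toPowerSeries = if k = 1 then 1 else 0 := by
  classical
  have h1 := congrArg (PowerSeries.coeff k) G.Xzero_eq_X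
  rw [PowerSeries.coeff_X] at h1
  have hz : HasSubst ![(PowerSeries.X : PowerSeries A), 0] := HasSubst.X_zero
  rw [← h1, PowerSeries.coeff, FormalGroup.Xzero, coeff_subst hz,
    finsum_eq_single _ (Finsupp.single 0 k)]
  · simp [PowerSeries.coeff_X_pow]
  · intro d hd
    by_cases h2 : d 1 = 0
    · have : d 0 ≠ k := fun e => hd (Finsupp.ext fun s => by fin_cases s <;> simp [e, h2])
      simp [h2, PowerSeries.X, coeff_X_pow]
      intro e; exact absurd e.symm this
    · simp [h2]

theorem law_split (G : FormalGroup A) : ∃ r : MvPowerSeries (Fin 2) A, G.toPowerSeries =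
    X 0 + X 1 * PowerSeries.subst (X 0 : MvPowerSeries (Fin 2) A) (dY G) + X 1 ^ 2 * r := by
  classical
  set T := X 0 + X 1 * PowerSeries.subst (X 0 : MvPowerSeries (Fin 2) A) (dY G) with hT
  suffices h : (X 1 : MvPowerSeries (Fin 2) A) ^ 2 ∣ G.toPowerSeries - T by
    obtain ⟨r, hr⟩ := h
    exact ⟨r, by rw [← hr]; ring⟩
  rw [X_pow_dvd_iff]
  intro d hd
  have hd' : d = Finsupp.single 0 (d 0) + Finsupp.single 1 (d 1) :=
    Finsupp.ext fun i => by fin_cases i <;> simp
  rw [hT, map_sub, map_add, coeff_X, show (X 1 : MvPowerSeries (Fin 2) A) =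
    monomial (Finsupp.single 1 1) 1 from rfl, coeff_monomial_mul, PowerSeries.coeff_subst_single]
  rcases (show d 1 = 0 ∨ d 1 = 1 by omega) with h1 | h1
  · have hnle : ¬ Finsupp.single 1 1 ≤ d := fun hle => by simpa [h1] using hle 1
    rw [h1, Finsupp.single_zero, add_zero] at hd'
    rw [if_neg hnle, add_zero, sub_eq_zero, hd', coeff_axis]
    simp [Finsupp.single_eq_single_iff]
  · have hle : Finsupp.single 1 1 ≤ d := fun i => by fin_cases i <;> simp [h1]
    have hsub : d - Finsupp.single 1 1 = Finsupp.single 0 (d 0) :=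
      Finsupp.ext fun i => by fin_cases i <;> simp [h1]
    rw [h1] at hd'
    rw [if_neg (fun e => by simpa [h1] using congrArg (fun g => g 1) e), if_pos hle, hsub,
      if_pos (by simp), zero_add, one_mul, sub_eq_zero]
    conv_lhs => rw [hd']
    simp [dY, PowerSeries.coeff_mk]

/-- A law is linear in a small second argument. -/
theorem Sq.law_add (h : Sq I m) (G : FormalGroup A) {a e : MvPowerSeries σ A}
    (ha : PowerSeries.HasSubst a) (he : Sm I e) :
    MvPowerSeries.subst ![a, e] G.toPowerSeries = a + e * PowerSeries.subst a (dY G) := by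
  obtain ⟨r, hr⟩ := law_split G
  have hw := hasSubst_two ha (h.hasSubst he)
  rw [hr, subst_add hw, subst_add hw, subst_mul hw, subst_mul hw, subst_pow hw, subst_X hw,
    subst_X hw, PowerSeries.subst_def (X 0), subst_comp_subst_apply (PowerSeries.HasSubst.X 0).const
      hw]
  simp only [Matrix.cons_val_zero, Matrix.cons_val_one, Matrix.cons_val_fin_one, h.sq_zero he,
    zero_mul, add_zero, subst_X hw]
  rfl

theorem isUnit_dY_subst (G : FormalGroup A) {a : MvPowerSeries σ A}
    (ha : constantCoeff a = 0) : IsUnit (PowerSeries.subst a (dY G)) := by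
  rw [MvPowerSeries.isUnit_iff_constantCoeff]
  have : dY G = (dY G - 1) + 1 := by ring
  rw [this, PowerSeries.subst_add (PowerSeries.HasSubst.of_constantCoeff_zero ha),
    map_add, PowerSeries.constantCoeff_subst_eq_zero ha _ (by simp [constantCoeff_dY]),
    ← PowerSeries.coe_substAlgHom (PowerSeries.HasSubst.of_constantCoeff_zero ha), map_one,
    map_one, zero_add]
  exact isUnit_one

theorem Sq.law_cancel (h : Sq I m) (G : FormalGroup A) {a e e' : MvPowerSeries σ A}
    (ha : constantCoeff a = 0) (he : Sm I e) (he' : Sm I e')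
    (heq : MvPowerSeries.subst ![a, e] G.toPowerSeries =
      MvPowerSeries.subst ![a, e'] G.toPowerSeries) : e = e' := by
  have ha' := PowerSeries.HasSubst.of_constantCoeff_zero ha
  rw [h.law_add G ha' he, h.law_add G ha' he', add_right_inj] at heq
  exact (isUnit_dY_subst G ha).mul_left_inj.1 heq

theorem Sq.law_exists (h : Sq I m) (G : FormalGroup A) {a b : MvPowerSeries σ A}
    (ha : constantCoeff a = 0) (hab : Sm I (b - a)) :
    ∃ e, Sm I e ∧ MvPowerSeries.subst ![a, e] G.toPowerSeries = b := by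
  obtain ⟨u, hu⟩ := isUnit_dY_subst G ha
  refine ⟨(b - a) * ↑u⁻¹, hab.mul_left _, ?_⟩
  rw [h.law_add G (PowerSeries.HasSubst.of_constantCoeff_zero ha) (hab.mul_left _), ← hu,
    mul_assoc, Units.inv_mul, mul_one, add_sub_cancel]

theorem Sq.law_small (h : Sq I m) (G : FormalGroup A) {e e' : MvPowerSeries σ A}
    (he : Sm I e) (he' : Sm I e') :
    MvPowerSeries.subst ![e, e'] G.toPowerSeries = e + e' := by
  rw [h.law_add G (h.hasSubst he) he', add_right_inj]
  refine (h.mul_congr he' ?_).trans (mul_one e')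
  rw [sm_sub_iff, PowerSeries.map_subst (h.hasSubst he), (sm_iff m e).1 (he.mono h.le), map_one,
    PowerSeries.subst_zero_eq_C_constantCoeff]
  rw [← PowerSeries.coeff_zero_eq_constantCoeff_apply, PowerSeries.coeff_map,
    PowerSeries.coeff_zero_eq_constantCoeff_apply, constantCoeff_dY, map_one]
  simp

/-- In a small second argument only the class of the law modulo I matters. -/
theorem Sq.law_congr (h : Sq I m) {G G' : FormalGroup A}
    (hG : Sm I (G'.toPowerSeries - G.toPowerSeries)) {a e : MvPowerSeries σ A}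
    (ha : PowerSeries.HasSubst a) (he : Sm I e) :
    MvPowerSeries.subst ![a, e] G'.toPowerSeries =
      MvPowerSeries.subst ![a, e] G.toPowerSeries := by
  rw [h.law_add G ha he, h.law_add G' ha he, add_right_inj]
  refine h.mul_congr he ?_
  rw [sm_sub_iff, PowerSeries.map_subst ha, PowerSeries.map_subst ha]
  congr 1
  ext i
  rw [PowerSeries.coeff_map, PowerSeries.coeff_map, Ideal.Quotient.eq, dY, dY,
    PowerSeries.coeff_mk, PowerSeries.coeff_mk, ← map_sub]
  exact h.le (hG _)

/-! ## Errors -/

variable {H G : FormalGroup A}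

/-- θ after H is G after θ, corrected by the small series E. -/
def Err (H G : FormalGroup A) (θ : PowerSeries A) (E : MvPowerSeries (Fin 2) A) : Prop :=
  PowerSeries.subst H.toPowerSeries θ = MvPowerSeries.subst
    ![MvPowerSeries.subst ![PowerSeries.subst (X 0 : MvPowerSeries (Fin 2) A) θ,
      PowerSeries.subst (X 1 : MvPowerSeries (Fin 2) A) θ] G.toPowerSeries, E] G.toPowerSeries

theorem hasSubst_subst {θ : PowerSeries A} (hθ : PowerSeries.constantCoeff θ = 0)
    {a : MvPowerSeries σ A} (ha : constantCoeff a = 0) :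
    PowerSeries.HasSubst (PowerSeries.subst a θ) :=
  .of_constantCoeff_zero (PowerSeries.constantCoeff_subst_eq_zero ha _ hθ)

theorem constantCoeff_law (G : FormalGroup A) {a b : MvPowerSeries σ A}
    (ha : constantCoeff a = 0) (hb : constantCoeff b = 0) :
    constantCoeff (MvPowerSeries.subst ![a, b] G.toPowerSeries) = 0 :=
  constantCoeff_subst_eq_zero
    (hasSubst_two (.of_constantCoeff_zero ha) (.of_constantCoeff_zero hb))
    (fun i => by fin_cases i <;> simpa) G.zero_constantCoeff

/-- A substitution passes into the arguments of a law. -/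
theorem subst_law (G : FormalGroup A) {w : σ → MvPowerSeries τ A} (hw : HasSubst w)
    {a b : MvPowerSeries σ A} (ha : PowerSeries.HasSubst a) (hb : PowerSeries.HasSubst b) :
    MvPowerSeries.subst w (MvPowerSeries.subst ![a, b] G.toPowerSeries) =
      MvPowerSeries.subst ![MvPowerSeries.subst w a, MvPowerSeries.subst w b] G.toPowerSeries := by
  rw [subst_comp_subst_apply (hasSubst_two ha hb) hw]
  congr 1
  funext i
  fin_cases i <;> rfl

theorem subst_series {w : σ → MvPowerSeries τ A} (hw : HasSubst w) {a : MvPowerSeries σ A}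
    (ha : PowerSeries.HasSubst a) (θ : PowerSeries A) :
    MvPowerSeries.subst w (PowerSeries.subst a θ) =
      PowerSeries.subst (MvPowerSeries.subst w a) θ := by
  rw [PowerSeries.subst_def, subst_comp_subst_apply ha.const hw]
  rfl

theorem Err.at {θ : PowerSeries A} (hθ : PowerSeries.constantCoeff θ = 0)
    {E : MvPowerSeries (Fin 2) A} (hE : Err H G θ E) (hE0 : PowerSeries.HasSubst E)
    {a b : MvPowerSeries σ A} (ha : constantCoeff a = 0) (hb : constantCoeff b = 0) :
    PowerSeries.subst (MvPowerSeries.subst ![a, b] H.toPowerSeries) θ = MvPowerSeries.subst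
      ![MvPowerSeries.subst ![PowerSeries.subst a θ, PowerSeries.subst b θ] G.toPowerSeries,
        MvPowerSeries.subst ![a, b] E] G.toPowerSeries := by
  have hw := hasSubst_two (PowerSeries.HasSubst.of_constantCoeff_zero ha)
    (PowerSeries.HasSubst.of_constantCoeff_zero hb)
  have h0 := hasSubst_subst hθ (constantCoeff_X (R := A) (0 : Fin 2))
  have h1 := hasSubst_subst hθ (constantCoeff_X (R := A) (1 : Fin 2))
  have e := congrArg (MvPowerSeries.subst ![a, b]) hE
  rw [subst_series hw (.of_constantCoeff_zero H.zero_constantCoeff),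
    subst_law G hw (.of_constantCoeff_zero (constantCoeff_law G
      (PowerSeries.constantCoeff_subst_eq_zero (constantCoeff_X _) _ hθ)
      (PowerSeries.constantCoeff_subst_eq_zero (constantCoeff_X _) _ hθ))) hE0,
    subst_law G hw h0 h1, subst_series hw (.X _), subst_series hw (.X _), subst_X hw,
    subst_X hw] at e
  exact e

/-- The cocycle operator. -/
def Cocycle (H : FormalGroup A) (E : MvPowerSeries (Fin 2) A) : Prop :=
  MvPowerSeries.subst ![(X 0 : MvPowerSeries (Fin 3) A), X 1] E +
      MvPowerSeries.subst ![MvPowerSeries.subst ![(X 0 : MvPowerSeries (Fin 3) A), X 1]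
        H.toPowerSeries, X 2] E =
    MvPowerSeries.subst ![(X 1 : MvPowerSeries (Fin 3) A), X 2] E +
      MvPowerSeries.subst ![X 0, MvPowerSeries.subst ![(X 1 : MvPowerSeries (Fin 3) A), X 2]
        H.toPowerSeries] E

/-- The series as a point of G. -/
abbrev pnt (G : FormalGroup A) (a : MvPowerSeries σ A) (ha : PowerSeries.HasSubst a) :
    G.Point σ := ⟨a, ha⟩

theorem Sq.cocycle (h : Sq I m) [G.IsComm] {θ : PowerSeries A}
    (hθ : PowerSeries.constantCoeff θ = 0) {E : MvPowerSeries (Fin 2) A} (hEs : Sm I E)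
    (hE : Err H G θ E) : Cocycle H E := by
  let y : Fin 3 → MvPowerSeries (Fin 3) A := fun i => X i
  have hy : ∀ i, constantCoeff (y i) = 0 := fun i => constantCoeff_X i
  have hE0 := h.hasSubst hEs
  have h01 := constantCoeff_law H (hy 0) (hy 1)
  have h12 := constantCoeff_law H (hy 1) (hy 2)
  let t : ∀ i, G.Point (Fin 3) := fun i => pnt G _ (hasSubst_subst hθ (hy i))
  have small : ∀ a b : MvPowerSeries (Fin 3) A, constantCoeff a = 0 → constantCoeff b = 0 →
      Sm I (MvPowerSeries.subst ![a, b] E) := fun a b ha hb =>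
    hEs.subst (hasSubst_two (.of_constantCoeff_zero ha) (.of_constantCoeff_zero hb))
  have s1 := small _ _ (hy 0) (hy 1)
  have s2 := small _ _ h01 (hy 2)
  have s3 := small _ _ (hy 1) (hy 2)
  have s4 := small _ _ (hy 0) h12
  let e1 := pnt G _ (h.hasSubst s1)
  let e2 := pnt G _ (h.hasSubst s2)
  let e3 := pnt G _ (h.hasSubst s3)
  let e4 := pnt G _ (h.hasSubst s4)
  have A1 : pnt G _ (hasSubst_subst hθ (constantCoeff_law H h01 (hy 2))) =
      ((t 0 + t 1 + e1) + t 2) + e2 := Subtype.ext (by
    simp only [FormalGroup.add_apply, t, e1, e2]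
    rw [← hE.at hθ hE0 (hy 0) (hy 1)]
    exact hE.at hθ hE0 h01 (hy 2))
  have A2 : pnt G _ (hasSubst_subst hθ (constantCoeff_law H (hy 0) h12)) =
      (t 0 + (t 1 + t 2 + e3)) + e4 := Subtype.ext (by
    simp only [FormalGroup.add_apply, t, e3, e4]
    rw [← hE.at hθ hE0 (hy 1) (hy 2)]
    exact hE.at hθ hE0 (hy 0) h12)
  have hass : MvPowerSeries.subst ![MvPowerSeries.subst ![y 0, y 1] H.toPowerSeries, y 2]
      H.toPowerSeries = MvPowerSeries.subst ![y 0, MvPowerSeries.subst ![y 1, y 2] H.toPowerSeries]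
      H.toPowerSeries := H.assoc' (.X _) (.X _) (.X _)
  have A3 : (t 0 + t 1 + t 2) + (e1 + e2) = (t 0 + t 1 + t 2) + (e3 + e4) := by
    calc (t 0 + t 1 + t 2) + (e1 + e2) = ((t 0 + t 1 + e1) + t 2) + e2 := by abel
      _ = (t 0 + (t 1 + t 2 + e3)) + e4 := by
        rw [← A1, ← A2]; exact Subtype.ext (by simp only [hass])
      _ = _ := by abel
  have A4 := congrArg Subtype.val A3
  rw [FormalGroup.add_apply, FormalGroup.add_apply _ (x := t 0 + t 1 + t 2)] at A4
  have hb : constantCoeff (t 0 + t 1 + t 2).val = 0 := by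
    simp only [FormalGroup.add_apply, t]
    exact constantCoeff_law G (constantCoeff_law G
      (PowerSeries.constantCoeff_subst_eq_zero (hy 0) _ hθ)
      (PowerSeries.constantCoeff_subst_eq_zero (hy 1) _ hθ))
      (PowerSeries.constantCoeff_subst_eq_zero (hy 2) _ hθ)
  have A5 : (e1 + e2).val = _ ∧ (e3 + e4).val = _ :=
    ⟨h.law_small G s1 s2, h.law_small G s3 s4⟩
  rw [A5.1, A5.2] at A4
  exact h.law_cancel G hb (s1.add s2) (s3.add s4) A4

theorem Sq.err_symm (h : Sq I m) [G.IsComm] [H.IsComm] {θ : PowerSeries A}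
    (hθ : PowerSeries.constantCoeff θ = 0) {E : MvPowerSeries (Fin 2) A} (hEs : Sm I E)
    (hE : Err H G θ E) : MvPowerSeries.subst ![(X 1 : MvPowerSeries (Fin 2) A), X 0] E = E := by
  have hs : Sm I (MvPowerSeries.subst ![(X 1 : MvPowerSeries (Fin 2) A), X 0] E) :=
    hEs.subst HasSubst.X_X
  have h0 := PowerSeries.constantCoeff_subst_eq_zero (constantCoeff_X (R := A) (0 : Fin 2)) θ hθ
  have h1 := PowerSeries.constantCoeff_subst_eq_zero (constantCoeff_X (R := A) (1 : Fin 2)) θ hθ
  refine h.law_cancel G (constantCoeff_law G h0 h1) hs hEs ?_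
  have e := hE.at hθ (h.hasSubst hEs) (constantCoeff_X (1 : Fin 2)) (constantCoeff_X (0 : Fin 2))
  rw [G.comm' (.of_constantCoeff_zero h1) (.of_constantCoeff_zero h0)] at e
  rw [← e, ← (FormalGroup.IsComm.comm (F := H))]
  exact hE

theorem Sq.err_axis (h : Sq I m) {θ : PowerSeries A}
    (hθ : PowerSeries.constantCoeff θ = 0) {E : MvPowerSeries (Fin 2) A} (hEs : Sm I E)
    (hE : Err H G θ E) : MvPowerSeries.subst ![(PowerSeries.X : PowerSeries A), 0] E = 0 := by
  have hX : MvPowerSeries.constantCoeff (PowerSeries.X : PowerSeries A) = 0 :=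
    PowerSeries.constantCoeff_X
  have e := hE.at hθ (h.hasSubst hEs) hX (map_zero _)
  rw [H.add_zero PowerSeries.HasSubst.X', PowerSeries.X_subst,
    PowerSeries.subst_zero_of_constantCoeff_zero hθ,
    G.add_zero (PowerSeries.HasSubst.of_constantCoeff_zero' hθ)] at e
  refine h.law_cancel G hθ (hEs.subst HasSubst.X_zero) sm_zero ?_
  rw [← e, G.add_zero (PowerSeries.HasSubst.of_constantCoeff_zero' hθ)]

/-- The coboundary of ψ. -/
def cob (H : FormalGroup A) (ψ : PowerSeries A) : MvPowerSeries (Fin 2) A :=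
  PowerSeries.subst H.toPowerSeries ψ - PowerSeries.subst (X 0 : MvPowerSeries (Fin 2) A) ψ -
    PowerSeries.subst (X 1 : MvPowerSeries (Fin 2) A) ψ

theorem Sm.subst' {ψ : PowerSeries A} (hψ : Sm I ψ) {a : MvPowerSeries σ A}
    (ha : PowerSeries.HasSubst a) : Sm I (PowerSeries.subst a ψ) :=
  hψ.subst ha.const

theorem sm_cob {ψ : PowerSeries A} (hψ : Sm I ψ) : Sm I (cob H ψ) :=
  ((hψ.subst' (.of_constantCoeff_zero H.zero_constantCoeff)).sub (hψ.subst' (.X _))).sub
    (hψ.subst' (.X _))

/-- Moving θ changes the error by a coboundary. -/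
theorem Sq.err_move (h : Sq I m) [G.IsComm] {θ ψ : PowerSeries A}
    (hθ : PowerSeries.constantCoeff θ = 0) (hψ : Sm I ψ) {E : MvPowerSeries (Fin 2) A}
    (hEs : Sm I E) (hE : Err H G θ E) :
    Err H G (MvPowerSeries.subst ![θ, ψ] G.toPowerSeries) (E + cob H ψ) := by
  have hH := PowerSeries.HasSubst.of_constantCoeff_zero H.zero_constantCoeff
  have hθs : PowerSeries.HasSubst (θ : MvPowerSeries Unit A) := .of_constantCoeff_zero' hθ
  have hX := fun i : Fin 2 => constantCoeff_X (R := A) i
  have key : ∀ {a : MvPowerSeries (Fin 2) A}, PowerSeries.HasSubst a →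
      PowerSeries.subst a (MvPowerSeries.subst ![θ, ψ] G.toPowerSeries) =
        MvPowerSeries.subst ![PowerSeries.subst a θ, PowerSeries.subst a ψ] G.toPowerSeries :=
    fun ha => subst_law G ha.const hθs (h.hasSubst hψ)
  have s0 := hψ.subst' (PowerSeries.HasSubst.X (S := A) (0 : Fin 2))
  have s1 := hψ.subst' (PowerSeries.HasSubst.X (S := A) (1 : Fin 2))
  have sH := hψ.subst' hH
  let t0 := pnt G _ (hasSubst_subst hθ (hX 0))
  let t1 := pnt G _ (hasSubst_subst hθ (hX 1))
  let u0 := pnt G _ (h.hasSubst s0)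
  let u1 := pnt G _ (h.hasSubst s1)
  let uH := pnt G _ (h.hasSubst sH)
  let e := pnt G _ (h.hasSubst hEs)
  let e' := pnt G _ (h.hasSubst (hEs.add (sm_cob (H := H) hψ)))
  have hsum : e + uH = (u0 + u1) + e' := Subtype.ext (by
    simp only [FormalGroup.add_apply, e, uH, u0, u1, e']
    rw [h.law_small G hEs sH, h.law_small G s0 s1,
      h.law_small G (s0.add s1) (hEs.add (sm_cob hψ)), cob]
    ring)
  have key2 : ((t0 + t1) + e) + uH = ((t0 + u0) + (t1 + u1)) + e' := by
    rw [add_assoc, hsum]; abel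
  have := congrArg Subtype.val key2
  simp only [FormalGroup.add_apply, t0, t1, u0, u1, uH, e, e'] at this
  unfold Err
  rw [key hH, key (.X _), key (.X _), hE]
  exact this

/-- Moving the target law changes the error by the difference of the laws. -/
theorem Sq.err_law (h : Sq I m) [G.IsComm] {G' : FormalGroup A} {Δ : MvPowerSeries (Fin 2) A}
    (hΔs : Sm I Δ) (hGs : Sm I (G'.toPowerSeries - G.toPowerSeries))
    (hΔ : G'.toPowerSeries = MvPowerSeries.subst ![G.toPowerSeries, Δ] G.toPowerSeries)
    {θ : PowerSeries A} (hθ : PowerSeries.constantCoeff θ = 0) (hθX : Sm m (θ - PowerSeries.X))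
    {E : MvPowerSeries (Fin 2) A} (hEs : Sm I E) (hE : Err H G θ E) :
    Err H G' θ (E - Δ) := by
  set a := PowerSeries.subst (X 0 : MvPowerSeries (Fin 2) A) θ with ha
  set b := PowerSeries.subst (X 1 : MvPowerSeries (Fin 2) A) θ with hb
  have ha0 : constantCoeff a = 0 :=
    PowerSeries.constantCoeff_subst_eq_zero (constantCoeff_X _) _ hθ
  have hb0 : constantCoeff b = 0 :=
    PowerSeries.constantCoeff_subst_eq_zero (constantCoeff_X _) _ hθ
  have hw := hasSubst_two (PowerSeries.HasSubst.of_constantCoeff_zero ha0)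
    (PowerSeries.HasSubst.of_constantCoeff_zero hb0)
  have hG0 := PowerSeries.HasSubst.of_constantCoeff_zero G.zero_constantCoeff
  have e1 : MvPowerSeries.subst ![a, b] Δ = Δ := by
    rw [h.subst_congr hΔs hw (HasSubst.X_X (i := 0) (j := 1)) fun i => ?_]
    · rw [show ![(X 0 : MvPowerSeries (Fin 2) A), X 1] = X from by funext i; fin_cases i <;> rfl,
        MvPowerSeries.subst_self, id]
    · have : ∀ j : Fin 2,
          Sm m (PowerSeries.subst (X j : MvPowerSeries (Fin 2) A) θ - X j) := fun j => by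
        conv => arg 2; arg 2; rw [← PowerSeries.subst_X (R := A) (PowerSeries.HasSubst.X (S := A) j)]
        rw [← PowerSeries.subst_sub (.X _)]
        exact hθX.subst' (.X _)
      fin_cases i
      · exact this 0
      · exact this 1
  have e2 : MvPowerSeries.subst ![a, b] G'.toPowerSeries = MvPowerSeries.subst
      ![MvPowerSeries.subst ![a, b] G.toPowerSeries, Δ] G.toPowerSeries := by
    rw [hΔ, subst_law G hw hG0 (h.hasSubst hΔs), e1]
  have hab := constantCoeff_law G ha0 hb0
  have hab' : constantCoeff (MvPowerSeries.subst ![a, b] G'.toPowerSeries) = 0 :=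
    constantCoeff_law G' ha0 hb0
  unfold Err
  rw [hE, h.law_congr hGs (.of_constantCoeff_zero hab') (hEs.sub hΔs), e2,
    G.assoc' (.of_constantCoeff_zero hab) (h.hasSubst hΔs) (h.hasSubst (hEs.sub hΔs)),
    h.law_small G hΔs (hEs.sub hΔs), add_sub_cancel]

end Vale.Agent.P217.Univ
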