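import Vale.Agent.P217.Univ.Defs
import Vale.Agent.P217.Univ.Small
import Vale.Agent.P217.Sym.Hom

/-!
# P217: universality reduces to laws equal to the reduction of F modulo m
-/

noncomputable section

namespace Vale.Agent.P217.Univ

open MvPowerSeries Vale.Agent.P217.Sym

variable {A : Type} [CommRing A]

theorem coeff_single_of_axis {h : MvPowerSeries (Fin 2) A}
    (h0 : MvPowerSeries.subst ![(PowerSeries.X : PowerSeries A), 0] h = PowerSeries.X) :
    coeff (Finsupp.single 0 1) h = 1 := by
  classical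
  have h1 := congrArg (PowerSeries.coeff 1) h0
  rw [PowerSeries.coeff_one_X] at h1
  have hz : HasSubst ![(PowerSeries.X : PowerSeries A), 0] := HasSubst.X_zero
  rw [← h1, PowerSeries.coeff, coeff_subst hz, finsum_eq_single _ (Finsupp.single 0 1)]
  · simp
  · intro d hd
    by_cases h2 : d 1 = 0
    · have : d 0 ≠ 1 := fun e => hd (Finsupp.ext fun s => by fin_cases s <;> simp [e, h2])
      simp [h2, PowerSeries.X, coeff_X_pow]
      intro e; exact absurd e.symm this
    · simp [h2]

theorem coeff_single_of_axis' {h : MvPowerSeries (Fin 2) A}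
    (h0 : MvPowerSeries.subst ![0, (PowerSeries.X : PowerSeries A)] h = PowerSeries.X) :
    coeff (Finsupp.single 1 1) h = 1 := by
  classical
  have h1 := congrArg (PowerSeries.coeff 1) h0
  rw [PowerSeries.coeff_one_X] at h1
  have hz : HasSubst ![0, (PowerSeries.X : PowerSeries A)] := HasSubst.zero_X
  rw [← h1, PowerSeries.coeff, coeff_subst hz, finsum_eq_single _ (Finsupp.single 1 1)]
  · simp
  · intro d hd
    by_cases h2 : d 0 = 0
    · have : d 1 ≠ 1 := fun e => hd (Finsupp.ext fun s => by fin_cases s <;> simp [e, h2])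
      simp [h2, PowerSeries.X, coeff_X_pow]
      intro e; exact absurd e.symm this
    · simp [h2]

theorem subst_inv_right {φ : PowerSeries A} (h0 : PowerSeries.constantCoeff φ = 0)
    (h1 : IsUnit (PowerSeries.coeff 1 φ)) {σ : Type} {a : MvPowerSeries σ A}
    (ha : constantCoeff a = 0) :
    PowerSeries.subst (PowerSeries.subst a (φ.substInvOfIsUnit h1)) φ = a := by
  have has := PowerSeries.HasSubst.of_constantCoeff_zero ha
  rw [← PowerSeries.subst_comp_subst_apply (PowerSeries.HasSubst.substInvOfIsUnit φ h1) has,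
    PowerSeries.subst_substInvOfIsUnit_right _ h0, PowerSeries.subst_X has]

theorem subst_inv_left {φ : PowerSeries A} (h0 : PowerSeries.constantCoeff φ = 0)
    (h1 : IsUnit (PowerSeries.coeff 1 φ)) {σ : Type} {a : MvPowerSeries σ A}
    (ha : constantCoeff a = 0) :
    PowerSeries.subst (PowerSeries.subst a φ) (φ.substInvOfIsUnit h1) = a := by
  have has := PowerSeries.HasSubst.of_constantCoeff_zero ha
  rw [← PowerSeries.subst_comp_subst_apply (PowerSeries.HasSubst.of_constantCoeff_zero' h0) has,
    PowerSeries.subst_substInvOfIsUnit_left _ h0, PowerSeries.subst_X has]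

/-- A commutative law transported by an invertible series. -/
theorem exists_conj (G : FormalGroup A) [G.IsComm] {φ : PowerSeries A}
    (h0 : PowerSeries.constantCoeff φ = 0) (h1 : IsUnit (PowerSeries.coeff 1 φ)) :
    ∃ H : FormalGroup A, H.IsComm ∧ IsLawHom G H φ := by
  set ψ := φ.substInvOfIsUnit h1
  have ψ0 : PowerSeries.constantCoeff ψ = 0 := PowerSeries.constantCoeff_substInvOfIsUnit _ h1
  set g : MvPowerSeries (Fin 2) A := MvPowerSeries.subst
    ![PowerSeries.subst (X 0 : MvPowerSeries (Fin 2) A) ψ,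
      PowerSeries.subst (X 1 : MvPowerSeries (Fin 2) A) ψ] G.toPowerSeries
  have g0 : constantCoeff g = 0 := constantCoeff_law G (constantCoeff_subst_X ψ0 0)
    (constantCoeff_subst_X ψ0 1)
  set h : MvPowerSeries (Fin 2) A := PowerSeries.subst g φ
  have hop : ∀ {σ : Type} {a b : MvPowerSeries σ A}, constantCoeff a = 0 → constantCoeff b = 0 →
      MvPowerSeries.subst ![a, b] h = PowerSeries.subst
        (MvPowerSeries.subst ![PowerSeries.subst a ψ, PowerSeries.subst b ψ] G.toPowerSeries) φ := by
    intro σ a b ha hb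
    have hw : HasSubst ![a, b] :=
      hasSubst_two (.of_constantCoeff_zero ha) (.of_constantCoeff_zero hb)
    rw [subst_series hw (.of_constantCoeff_zero g0),
      subst_law G hw (hasSubst_subst ψ0 (constantCoeff_X 0))
        (hasSubst_subst ψ0 (constantCoeff_X 1)),
      subst_series hw (.of_constantCoeff_zero (constantCoeff_X 0)),
      subst_series hw (.of_constantCoeff_zero (constantCoeff_X 1)), subst_X hw, subst_X hw]
    rfl
  have hc : ∀ {σ : Type} {a b : MvPowerSeries σ A}, constantCoeff a = 0 → constantCoeff b = 0 →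
      constantCoeff (MvPowerSeries.subst ![a, b] h) = 0 := fun ha hb => by
    rw [hop ha hb]
    exact PowerSeries.constantCoeff_subst_eq_zero (constantCoeff_law G
      (PowerSeries.constantCoeff_subst_eq_zero ha _ ψ0)
      (PowerSeries.constantCoeff_subst_eq_zero hb _ ψ0)) _ h0
  have hs : ∀ {σ : Type} {a : MvPowerSeries σ A}, constantCoeff a = 0 →
      PowerSeries.HasSubst (PowerSeries.subst a ψ) := fun ha => hasSubst_subst ψ0 ha
  have hzero : ∀ {σ : Type}, PowerSeries.subst (0 : MvPowerSeries σ A) ψ = 0 := fun {σ} =>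
    PowerSeries.subst_zero_of_constantCoeff_zero ψ0
  have hX0 : constantCoeff (PowerSeries.X : PowerSeries A) = 0 := constantCoeff_X ()
  have axis0 : MvPowerSeries.subst ![(PowerSeries.X : PowerSeries A), 0] h = PowerSeries.X := by
    rw [hop hX0 (map_zero _), hzero, G.add_zero (hs hX0), subst_inv_right h0 h1 hX0]
  have axis1 : MvPowerSeries.subst ![0, (PowerSeries.X : PowerSeries A)] h = PowerSeries.X := by
    rw [hop (map_zero _) hX0, hzero, G.zero_add (hs hX0), subst_inv_right h0 h1 hX0]
  have hassoc : MvPowerSeries.subst ![MvPowerSeries.subst ![(X 0 : MvPowerSeries (Fin 3) A), X 1] h,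
      X 2] h = MvPowerSeries.subst ![(X 0 : MvPowerSeries (Fin 3) A),
      MvPowerSeries.subst ![X 1, X 2] h] h := by
    have hY := constantCoeff_X (R := A) (σ := Fin 3)
    have hl : ∀ i j : Fin 3, PowerSeries.subst
        (MvPowerSeries.subst ![(X i : MvPowerSeries (Fin 3) A), X j] h) ψ =
        MvPowerSeries.subst ![PowerSeries.subst (X i : MvPowerSeries (Fin 3) A) ψ,
          PowerSeries.subst (X j : MvPowerSeries (Fin 3) A) ψ] G.toPowerSeries := fun i j => by
      rw [hop (hY i) (hY j), subst_inv_left h0 h1 (constantCoeff_law G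
        (PowerSeries.constantCoeff_subst_eq_zero (hY i) _ ψ0)
        (PowerSeries.constantCoeff_subst_eq_zero (hY j) _ ψ0))]
    rw [hop (hc (hY 0) (hY 1)) (hY 2), hop (hY 0) (hc (hY 1) (hY 2)), hl, hl,
      G.assoc' (hs (hY 0)) (hs (hY 1)) (hs (hY 2))]
  let H : FormalGroup A :=
    ⟨h, PowerSeries.constantCoeff_subst_eq_zero g0 _ h0, coeff_single_of_axis axis0,
      coeff_single_of_axis' axis1, hassoc⟩
  refine ⟨H, ⟨?_⟩, h0, ?_⟩
  · show h = MvPowerSeries.subst ![(X 1 : MvPowerSeries (Fin 2) A), X 0] h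
    rw [hop (constantCoeff_X 1) (constantCoeff_X 0), G.comm' (hs (constantCoeff_X 1))
      (hs (constantCoeff_X 0))]
  · show _ = MvPowerSeries.subst _ h
    rw [hop (constantCoeff_subst_X h0 0) (constantCoeff_subst_X h0 1),
      subst_inv_left h0 h1 (constantCoeff_X 0), subst_inv_left h0 h1 (constantCoeff_X 1)]
    have e : (![X 0, X 1] : Fin 2 → MvPowerSeries (Fin 2) A) = X := by
      funext i; fin_cases i <;> rfl
    rw [e, MvPowerSeries.subst_self]
    rfl

theorem law_ext_of_hom {G H H' : FormalGroup A} {φ : PowerSeries A} (hH : IsLawHom G H φ)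
    (hH' : IsLawHom G H' φ) (h1 : IsUnit (PowerSeries.coeff 1 φ)) : H = H' := by
  obtain ⟨h0, e⟩ := hH.substInv h1
  have e' := (hH'.substInv h1).2
  refine FormalGroup.ext (FE.subst_injective h0 (by simp) H.zero_constantCoeff
    H'.zero_constantCoeff ?_)
  rw [e, e']

theorem isUnit_of_map {m : Ideal A} [IsAdicComplete m A] {a : A}
    (h : IsUnit (Ideal.Quotient.mk m a)) : IsUnit a := by
  obtain ⟨b, hb⟩ := Ideal.Quotient.mk_surjective h.unit⁻¹.val
  have hab : a * b - 1 ∈ m := by
    rw [← Ideal.Quotient.eq, map_mul, hb, IsUnit.mul_val_inv, map_one]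
  have hu := Ideal.mem_jacobson_bot.1 (IsAdicComplete.le_jacobson_bot m hab) 1
  rw [mul_one, sub_add_cancel] at hu
  exact isUnit_of_mul_isUnit_left hu

/-- Universality follows from the normalised case. -/
theorem universality_of_normalised (hN : NormalisedPin) : Universality := by
  intro p n _ hn F hF R _ m _ hp ι G _ γ hγ hγ1
  set π := Ideal.Quotient.mk m
  choose c hc using fun k => Ideal.Quotient.mk_surjective (I := m) (PowerSeries.coeff k γ)
  set φ₀ : PowerSeries R := PowerSeries.mk fun k => if k = 0 then 0 else c k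
  have h0 : PowerSeries.constantCoeff φ₀ = 0 := by
    rw [← PowerSeries.coeff_zero_eq_constantCoeff_apply]; simp [φ₀]
  have hmap : PowerSeries.map π φ₀ = γ := by
    ext k
    rcases Nat.eq_zero_or_pos k with rfl | hk
    · simpa [φ₀] using hγ.1.symm
    · simp [φ₀, hk.ne', π, hc]
  have h1 : IsUnit (PowerSeries.coeff 1 φ₀) := isUnit_of_map (m := m) <| by
    rw [← PowerSeries.coeff_map, hmap]; exact hγ1
  obtain ⟨H, hHc, hGH⟩ := exists_conj G h0 h1
  have hH : H.map π = (F.map residue).map ι := by
    have h := hGH.map π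
    rw [hmap] at h
    exact law_ext_of_hom h hγ hγ1
  obtain ⟨⟨s, θ⟩, ⟨hs, hθ, hθX⟩, huniq⟩ := hN p n hn F hF R m hp ι H hH
  have hs0 := PowerSeries.HasSubst.of_constantCoeff_zero' h0
  refine ⟨(s, PowerSeries.subst φ₀ θ), ⟨hs, ?_, hGH.comp hθ, ?_⟩, ?_⟩
  · refine isUnit_of_map (m := m) ?_
    rw [← PowerSeries.coeff_map]
    show IsUnit (PowerSeries.coeff 1 (PowerSeries.map π (PowerSeries.subst φ₀ θ)))
    have e : PowerSeries.map π (PowerSeries.subst φ₀ θ) =
        PowerSeries.subst (PowerSeries.map π φ₀) (PowerSeries.map π θ) :=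
      PowerSeries.map_subst hs0 _
    rw [e, hθX, PowerSeries.subst_X (PowerSeries.HasSubst.of_constantCoeff_zero' (hmap ▸ hγ.1)),
      hmap]
    exact hγ1
  · have e : PowerSeries.map π (PowerSeries.subst φ₀ θ) =
        PowerSeries.subst (PowerSeries.map π φ₀) (PowerSeries.map π θ) :=
      PowerSeries.map_subst hs0 _
    show PowerSeries.map π (PowerSeries.subst φ₀ θ) = γ
    rw [e, hθX, PowerSeries.subst_X (PowerSeries.HasSubst.of_constantCoeff_zero' (hmap ▸ hγ.1)),
      hmap]
  · rintro ⟨t, φ⟩ ⟨ht, -, hφ, hφm⟩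
    set ψ := φ₀.substInvOfIsUnit h1
    have hψs := PowerSeries.HasSubst.substInvOfIsUnit φ₀ h1
    have eX : PowerSeries.map π (PowerSeries.subst ψ φ) = PowerSeries.X := by
      have e : PowerSeries.map π (PowerSeries.subst ψ φ) =
          PowerSeries.subst (PowerSeries.map π ψ) (PowerSeries.map π φ) :=
        PowerSeries.map_subst hψs _
      rw [e, show PowerSeries.map π φ = PowerSeries.map π φ₀ from hφm.trans hmap.symm]
      have e2 := congrArg (PowerSeries.map π)
        (PowerSeries.subst_substInvOfIsUnit_right _ h0 h1)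
      rw [PowerSeries.map_X] at e2
      exact (PowerSeries.map_subst hψs _).symm.trans e2
    have key := huniq (t, PowerSeries.subst ψ φ) ⟨ht, (hGH.substInv h1).comp hφ, eX⟩
    rw [Prod.mk.injEq] at key ⊢
    refine ⟨key.1, ?_⟩
    rw [← key.2, PowerSeries.subst_comp_subst_apply hψs hs0,
      PowerSeries.subst_substInvOfIsUnit_left _ h0]
    exact (PowerSeries.X_subst φ).symm

end Vale.Agent.P217.Univ
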