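import Vale.Agent.P217.Univ.Step
import Vale.Agent.P217.Univ.Transport

/-!
# P217: universality of the deformation F

Successive approximation modulo the powers of m: the Lubin-Tate theorem for F.
-/

noncomputable section

namespace Vale.Agent.P217

open MvPowerSeries Vale.Agent.P217.Sym

namespace Univ

variable {p n : ℕ} [Fact p.Prime] {A B : Type} [CommRing A] [CommRing B]

theorem map_defect (f : A →+* B) (H G : FormalGroup A) {θ : PowerSeries A}
    (hθ : PowerSeries.constantCoeff θ = 0) : MvPowerSeries.map f (defect H G θ) =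
      defect (H.map f) (G.map f) (PowerSeries.map f θ) := by
  rw [defect, defect, map_sub,
    PowerSeries.map_subst (.of_constantCoeff_zero H.zero_constantCoeff),
    map_subst (hasSubst_two (hasSubst_subst hθ (constantCoeff_X 0))
      (hasSubst_subst hθ (constantCoeff_X 1)))]
  congr 2
  funext i
  fin_cases i <;> simp [PowerSeries.map_subst (PowerSeries.HasSubst.X _)]

theorem constantCoeff_psmap (f : A →+* B) {θ : PowerSeries A}
    (hθ : PowerSeries.constantCoeff θ = 0) :
    PowerSeries.constantCoeff (PowerSeries.map f θ) = 0 := by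
  rw [← PowerSeries.coeff_zero_eq_constantCoeff_apply, PowerSeries.coeff_map,
    PowerSeries.coeff_zero_eq_constantCoeff_apply, hθ, map_zero]

theorem Sm.map {σ : Type} {J : Ideal A} {g : MvPowerSeries σ A} (h : Sm J g) (f : A →+* B) :
    Sm (J.map f) (MvPowerSeries.map f g) := fun d => by
  rw [coeff_map]; exact Ideal.mem_map_of_mem _ (h d)

variable {R : Type} [CommRing R] {m : Ideal R}

/-- The quotient used in the N-th step. -/
abbrev qN (m : Ideal R) (N : ℕ) : R →+* R ⧸ m ^ (N + 1) := Ideal.Quotient.mk _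

theorem sq_qN {N : ℕ} (hN : 1 ≤ N) : Sq ((m ^ N).map (qN m N)) (m.map (qN m N)) := by
  refine ⟨Ideal.map_mono (Ideal.pow_le_self (by omega)), fun he hx => ?_⟩
  obtain ⟨e', he', rfl⟩ := (Ideal.mem_map_iff_of_surjective _ Ideal.Quotient.mk_surjective).1 he
  obtain ⟨x', hx', rfl⟩ := (Ideal.mem_map_iff_of_surjective _ Ideal.Quotient.mk_surjective).1 hx
  rw [← map_mul, Ideal.Quotient.eq_zero_iff_mem, pow_succ]
  exact Ideal.mul_mem_mul he' hx'

/-- The data of a normalised deformation problem. -/
structure Prob (p n : ℕ) [Fact p.Prime] (R : Type) [CommRing R] (m : Ideal R)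
    (F : FormalGroup (E0 p n)) (ι : GaloisField p n →+* R ⧸ m) (H : FormalGroup R) : Prop where
  pn : 1 ≤ n
  univ : IsUniversalDeformation p n F
  p_mem : (p : R) ∈ m
  comm : H.IsComm
  reduced : H.map (Ideal.Quotient.mk m) = (F.map residue).map ι

/-- The candidates after N steps. -/
structure Near (m : Ideal R) (ι : GaloisField p n →+* R ⧸ m) (F : FormalGroup (E0 p n))
    (H : FormalGroup R) (N : ℕ) (x : (E0 p n →+* R) × PowerSeries R) : Prop where
  res : ∀ b, Ideal.Quotient.mk m (x.1 b) = ι (residue b)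
  zero : PowerSeries.constantCoeff x.2 = 0
  cong : Sm m (x.2 - PowerSeries.X)
  err : Sm (m ^ N) (defect H (F.map x.1) x.2)

variable {F : FormalGroup (E0 p n)} {ι : GaloisField p n →+* R ⧸ m} {H : FormalGroup R}

theorem local_qN {x : (E0 p n →+* R)} (hx : ∀ b, Ideal.Quotient.mk m (x b) = ι (residue b))
    (N : ℕ) : Local (m.map (qN m N)) ((qN m N).comp x) := fun b hb => by
  refine Ideal.mem_map_of_mem _ ?_
  rw [← Ideal.Quotient.eq_zero_iff_mem, hx, hb, map_zero]

theorem reduced_qN (P : Prob p n R m F ι H) {x : (E0 p n →+* R)}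
    (hx : ∀ b, Ideal.Quotient.mk m (x b) = ι (residue b)) (N : ℕ) :
    Sm (m.map (qN m N)) ((H.map (qN m N)).toPowerSeries -
      (F.map ((qN m N).comp x)).toPowerSeries) := fun e => by
  rw [map_sub, FormalGroup.map_toPowerSeries, FormalGroup.map_toPowerSeries, coeff_map, coeff_map,
    RingHom.comp_apply, ← map_sub]
  refine Ideal.mem_map_of_mem _ ?_
  rw [← Ideal.Quotient.eq, hx]
  have h := congrArg (fun G : FormalGroup (R ⧸ m) => coeff e G.toPowerSeries) P.reduced
  simpa [FormalGroup.map_toPowerSeries] using h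

theorem map_law (N : ℕ) (x : E0 p n →+* R) :
    (F.map x).map (qN m N) = F.map ((qN m N).comp x) := by
  refine FormalGroup.ext (MvPowerSeries.ext fun e => ?_)
  simp [FormalGroup.map_toPowerSeries]

variable [IsAdicComplete m R]

theorem step (P : Prob p n R m F ι H) {N : ℕ} (hN : 1 ≤ N) {x : (E0 p n →+* R) × PowerSeries R}
    (hx : Near m ι F H N x) : ∃ y, Near m ι F H (N + 1) y ∧
      (∀ i, y.1 (X i) - x.1 (X i) ∈ m ^ N) ∧ Sm (m ^ N) (y.2 - x.2) := by
  obtain ⟨s, θ⟩ := x
  obtain ⟨hres, hθ, hθX, herr⟩ := hx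
  have := P.comm
  have : (H.map (qN m N)).IsComm := isComm_map H _
  have hθX' : Sm (m.map (qN m N))
      (MvPowerSeries.map (qN m N) θ - PowerSeries.X : MvPowerSeries Unit _) := by
    have h := hθX.map (qN m N)
    rwa [map_sub, show MvPowerSeries.map (qN m N) (PowerSeries.X : PowerSeries R) = PowerSeries.X
      from PowerSeries.map_X _] at h
  have hd : Sm ((m ^ N).map (qN m N)) (defect (H.map (qN m N)) (F.map ((qN m N).comp s))
      (PowerSeries.map (qN m N) θ)) := by
    rw [← map_law, ← map_defect _ _ _ hθ]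
    exact herr.map _
  obtain ⟨δ, hδ, hstep⟩ := step_exists (sq_qN hN) P.pn P.univ (local_qN hres N)
    (reduced_qN P hres N) (constantCoeff_psmap _ hθ) hθX' hd
  choose δ' hδ' hδe using fun i =>
    (Ideal.mem_map_iff_of_surjective _ Ideal.Quotient.mk_surjective).1 (hδ i)
  have hXm : ∀ i, s (X i) ∈ m := fun i => by
    rw [← Ideal.Quotient.eq_zero_iff_mem, hres]; simp [residue]
  obtain ⟨hex, huniq⟩ := evalPin p n P.pn R m P.p_mem ι
  obtain ⟨s', hres', hs'X⟩ := hex (fun i => s (X i) + δ' i)
    fun i => m.add_mem (hXm i) (Ideal.pow_le_self (by omega) (hδ' i))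
  have hdX : ∀ i, s' (X i) - s (X i) ∈ m ^ N := fun i => by
    rw [hs'X, add_sub_cancel_left]; exact hδ' i
  have hd' : ∀ b, s' b - s b ∈ m ^ N := huniq s' s hres' hres N hdX
  have hconst : ∀ w, s' (constants w) = s (constants w) := RingHom.congr_fun <|
    witt_hom_ext P.pn P.p_mem (s'.comp constants) (s.comp constants) fun w => by
      rw [← Ideal.Quotient.eq, RingHom.comp_apply, RingHom.comp_apply, hres', hres]
  obtain ⟨ψ, hψ, hψ0, hψd⟩ := hstep ((qN m N).comp s')
    (fun b => by
      rw [RingHom.comp_apply, RingHom.comp_apply, ← map_sub]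
      exact Ideal.mem_map_of_mem _ (hd' b))
    (fun w => by rw [RingHom.comp_apply, RingHom.comp_apply, hconst])
    (fun i => by rw [RingHom.comp_apply, RingHom.comp_apply, ← map_sub, hs'X, add_sub_cancel_left,
      hδe])
  choose c hc hce using fun k =>
    (Ideal.mem_map_iff_of_surjective _ Ideal.Quotient.mk_surjective).1 (hψ (Finsupp.single () k))
  let ψ' : PowerSeries R := PowerSeries.mk fun k => if k = 0 then 0 else c k
  have hψ'0 : PowerSeries.constantCoeff ψ' = 0 := by
    rw [← PowerSeries.coeff_zero_eq_constantCoeff_apply, PowerSeries.coeff_mk, if_pos rfl]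
  have hψ'e : PowerSeries.map (qN m N) ψ' = ψ := by
    ext k
    rw [PowerSeries.coeff_map, PowerSeries.coeff_mk]
    rcases Nat.eq_zero_or_pos k with rfl | hk
    · rw [if_pos rfl, map_zero, PowerSeries.coeff_zero_eq_constantCoeff_apply, hψ0]
    · rw [if_neg hk.ne']; exact hce k
  have hψ's : Sm (m ^ N) ψ' := fun e => by
    have : PowerSeries.coeff (e ()) ψ' ∈ m ^ N := by
      rw [PowerSeries.coeff_mk]
      split_ifs
      · exact Ideal.zero_mem _
      · exact hc _
    rwa [show e = Finsupp.single () (e ()) from Finsupp.ext fun u => by simp]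
  let θ' : PowerSeries R := MvPowerSeries.subst ![θ, ψ'] (F.map s').toPowerSeries
  have hw : HasSubst ![(θ : MvPowerSeries Unit R), ψ'] :=
    hasSubst_two (.of_constantCoeff_zero' hθ) (.of_constantCoeff_zero' hψ'0)
  have hθ'0 : PowerSeries.constantCoeff θ' = 0 := constantCoeff_law (F.map s') hθ hψ'0
  have hθθ : Sm (m ^ N) (θ' - θ) := by
    rw [sm_sub_iff, map_subst hw,
      show (fun i => MvPowerSeries.map (Ideal.Quotient.mk (m ^ N))
        (![(θ : MvPowerSeries Unit R), ψ'] i)) =
        ![MvPowerSeries.map (Ideal.Quotient.mk (m ^ N)) θ, 0] by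
      funext i
      fin_cases i
      · rfl
      · exact (sm_iff _ _).1 hψ's]
    exact ((F.map s').map (Ideal.Quotient.mk (m ^ N))).add_zero
      (.of_constantCoeff_zero' (constantCoeff_psmap _ hθ))
  refine ⟨(s', θ'), ⟨hres', hθ'0, ?_, ?_⟩, hdX, hθθ⟩
  · rw [show θ' - PowerSeries.X = (θ' - θ) + (θ - PowerSeries.X) by ring]
    exact (hθθ.mono (Ideal.pow_le_self (by omega))).add hθX
  · have e : PowerSeries.map (qN m N) θ' = MvPowerSeries.subst
        ![PowerSeries.map (qN m N) θ, ψ] (F.map ((qN m N).comp s')).toPowerSeries := by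
      rw [← map_law, ← hψ'e]
      refine (map_subst hw _).trans ?_
      congr 1
      funext i
      fin_cases i <;> rfl
    rw [sm_iff, map_defect _ _ _ hθ'0, map_law, e]
    exact hψd

theorem unique (P : Prob p n R m F ι H) {x y : (E0 p n →+* R) × PowerSeries R}
    (hx : ∀ b, Ideal.Quotient.mk m (x.1 b) = ι (residue b))
    (hy : ∀ b, Ideal.Quotient.mk m (y.1 b) = ι (residue b))
    (hx0 : PowerSeries.constantCoeff x.2 = 0) (hy0 : PowerSeries.constantCoeff y.2 = 0)
    (hxX : Sm m (x.2 - PowerSeries.X)) (hyX : Sm m (y.2 - PowerSeries.X))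
    (hxe : defect H (F.map x.1) x.2 = 0) (hye : defect H (F.map y.1) y.2 = 0) : y = x := by
  obtain ⟨s, θ⟩ := x
  obtain ⟨s', θ'⟩ := y
  simp only at hx hy hx0 hy0 hxX hyX hxe hye
  have := P.comm
  obtain ⟨-, huniq⟩ := evalPin p n P.pn R m P.p_mem ι
  have hconst : ∀ w, s' (constants w) = s (constants w) := RingHom.congr_fun <|
    witt_hom_ext P.pn P.p_mem (s'.comp constants) (s.comp constants) fun w => by
      rw [← Ideal.Quotient.eq, RingHom.comp_apply, RingHom.comp_apply, hy, hx]
  have main : ∀ N, 1 ≤ N → (∀ b, s' b - s b ∈ m ^ N) ∧ Sm (m ^ N) (θ' - θ) := by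
    intro N hN
    induction N, hN using Nat.le_induction with
    | base =>
      rw [pow_one]
      refine ⟨fun b => by rw [← Ideal.Quotient.eq, hy, hx], ?_⟩
      rw [show θ' - θ = (θ' - PowerSeries.X) - (θ - PowerSeries.X) by ring]
      exact hyX.sub hxX
    | succ N hN ih =>
      have : (H.map (qN m N)).IsComm := isComm_map H _
      have hθX' : Sm (m.map (qN m N))
          (MvPowerSeries.map (qN m N) θ - PowerSeries.X : MvPowerSeries Unit _) := by
        have h := hxX.map (qN m N)
        rwa [map_sub, show MvPowerSeries.map (qN m N) (PowerSeries.X : PowerSeries R) =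
          PowerSeries.X from PowerSeries.map_X _] at h
      have hθθ : Sm ((m ^ N).map (qN m N))
          (PowerSeries.map (qN m N) θ' - PowerSeries.map (qN m N) θ) := by
        rw [← map_sub]; exact ih.2.map _
      obtain ⟨hX, heq⟩ := step_unique (sq_qN hN) P.pn P.univ (local_qN hx N)
        (s' := (qN m N).comp s')
        (fun b => by
          rw [RingHom.comp_apply, RingHom.comp_apply, ← map_sub]
          exact Ideal.mem_map_of_mem _ (ih.1 b))
        (fun w => by rw [RingHom.comp_apply, RingHom.comp_apply, hconst])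
        (reduced_qN P hx N) (constantCoeff_psmap _ hx0) (constantCoeff_psmap _ hy0) hθX' hθθ
        (by rw [← map_law, ← map_defect _ _ _ hx0, hxe, map_zero])
        (by rw [← map_law, ← map_defect _ _ _ hy0, hye, map_zero])
      have hs : ∀ b, s' b - s b ∈ m ^ (N + 1) := huniq s' s hy hx (N + 1) fun i => by
        rw [← Ideal.Quotient.eq]; exact hX i
      refine ⟨hs, ?_⟩
      have e : F.map ((qN m N).comp s') = F.map ((qN m N).comp s) := by
        refine FormalGroup.ext (MvPowerSeries.ext fun e => ?_)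
        simp only [FormalGroup.map_toPowerSeries, coeff_map, RingHom.comp_apply]
        exact Ideal.Quotient.eq.2 (hs _)
      rw [sm_sub_iff]
      exact heq e
  refine Prod.ext (RingHom.ext fun b => sub_eq_zero.1 (IsHausdorff.haus' (I := m) _ fun N => ?_))
    (PowerSeries.ext fun k => sub_eq_zero.1 (IsHausdorff.haus' (I := m) _ fun N => ?_))
  · rw [SModEq.zero, smul_eq_mul, Ideal.mul_top]
    exact Ideal.pow_le_pow_right (Nat.le_succ N) ((main (N + 1) N.succ_pos).1 b)
  · rw [SModEq.zero, smul_eq_mul, Ideal.mul_top, ← map_sub]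
    exact Ideal.pow_le_pow_right (Nat.le_succ N) ((main (N + 1) N.succ_pos).2 (Finsupp.single () k))

/-- The normalised universality theorem. -/
theorem normalised : NormalisedPin := by
  intro p n _ hn F hF R _ m _ hp ι H hHc hred
  have P : Prob p n R m F ι H := ⟨hn, hF, hp, hHc, hred⟩
  obtain ⟨hex, huniq⟩ := evalPin p n hn R m hp ι
  obtain ⟨s₀, hs₀, -⟩ := hex (fun _ => 0) fun _ => m.zero_mem
  have h0 : Near m ι F H 1 (s₀, PowerSeries.X) := by
    refine ⟨hs₀, PowerSeries.constantCoeff_X, by rw [sub_self]; exact sm_zero, ?_⟩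
    rw [pow_one, sm_iff, map_defect _ _ _ PowerSeries.constantCoeff_X, PowerSeries.map_X]
    have e : (F.map s₀).map (Ideal.Quotient.mk m) = (F.map residue).map ι := by
      refine FormalGroup.ext (MvPowerSeries.ext fun e => ?_)
      simp [FormalGroup.map_toPowerSeries, hs₀]
    rw [e, ← hred, defect, PowerSeries.subst_X (.X _), PowerSeries.subst_X (.X _),
      PowerSeries.subst_X (.of_constantCoeff_zero (FormalGroup.zero_constantCoeff _)),
      show ![(X 0 : MvPowerSeries (Fin 2) (R ⧸ m)), X 1] = X from by funext i; fin_cases i <;> rfl,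
      MvPowerSeries.subst_self, id, sub_self]
  choose g hg using fun (N : ℕ) (x : {x // Near m ι F H (N + 1) x}) =>
    step P (Nat.succ_pos N) x.2
  let seq : ∀ N, {x // Near m ι F H (N + 1) x} := fun N =>
    Nat.rec ⟨(s₀, PowerSeries.X), h0⟩ (fun N x => ⟨g N x, (hg N x).1⟩) N
  have hsucc : ∀ N, (∀ i, (seq (N + 1)).1.1 (X i) - (seq N).1.1 (X i) ∈ m ^ (N + 1)) ∧
      Sm (m ^ (N + 1)) ((seq (N + 1)).1.2 - (seq N).1.2) := fun N => (hg N (seq N)).2
  have cauchy : ∀ {f : ℕ → R}, (∀ N, f (N + 1) - f N ∈ m ^ (N + 1)) →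
      ∀ a b, a ≤ b → f b - f a ∈ m ^ (a + 1) := by
    intro f hf a b hab
    induction b, hab using Nat.le_induction with
    | base => simp
    | succ b hab ih =>
      rw [show f (b + 1) - f a = (f (b + 1) - f b) + (f b - f a) by ring]
      exact Ideal.add_mem _ (Ideal.pow_le_pow_right (by omega) (hf b)) ih
  have lim : ∀ {f : ℕ → R}, (∀ N, f (N + 1) - f N ∈ m ^ (N + 1)) →
      ∃ L, ∀ N, L - f N ∈ m ^ (N + 1) := by
    intro f hf
    obtain ⟨L, hL⟩ := IsPrecomplete.prec (I := m) (M := R) inferInstance (f := f) fun {a b} hab => by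
      rw [smul_eq_mul, Ideal.mul_top, SModEq.sub_mem]
      simpa using neg_mem (Ideal.pow_le_pow_right (Nat.le_succ a) (cauchy hf a b hab))
    refine ⟨L, fun N => ?_⟩
    have h1 := hL (N + 1)
    rw [smul_eq_mul, Ideal.mul_top, SModEq.sub_mem] at h1
    rw [show L - f N = -(f (N + 1) - L) + (f (N + 1) - f N) by ring]
    exact Ideal.add_mem _ (neg_mem h1) (hf N)
  choose a ha using fun i => lim (f := fun N => (seq N).1.1 (X i)) fun N => (hsucc N).1 i
  choose t ht using fun k => lim (f := fun N => PowerSeries.coeff k (seq N).1.2) fun N => by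
    rw [← map_sub]; exact (hsucc N).2 (Finsupp.single () k)
  have ham : ∀ i, a i ∈ m := fun i => by
    have h1 : (seq 0).1.1 (X i) ∈ m := by
      rw [← Ideal.Quotient.eq_zero_iff_mem, (seq 0).2.res]; simp [residue]
    have h2 := ha i 0
    simpa using m.add_mem (Ideal.pow_le_self (Nat.succ_ne_zero 0) h2) h1
  obtain ⟨s, hs, hsX⟩ := hex a ham
  let θ : PowerSeries R := PowerSeries.mk t
  have hsN : ∀ N b, s b - (seq N).1.1 b ∈ m ^ (N + 1) := fun N =>
    huniq s _ hs (seq N).2.res (N + 1) fun i => by rw [hsX]; exact ha i N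
  have hθN : ∀ N, Sm (m ^ (N + 1)) (θ - (seq N).1.2) := fun N e => by
    have : PowerSeries.coeff (e ()) (θ - (seq N).1.2) ∈ m ^ (N + 1) := by
      rw [map_sub, PowerSeries.coeff_mk]; exact ht _ N
    rwa [show e = Finsupp.single () (e ()) from Finsupp.ext fun u => by simp]
  have hθ0 : PowerSeries.constantCoeff θ = 0 := by
    refine IsHausdorff.haus' (I := m) _ fun N => ?_
    rw [SModEq.zero, smul_eq_mul, Ideal.mul_top]
    have := ht 0 N
    rw [PowerSeries.coeff_zero_eq_constantCoeff_apply, (seq N).2.zero, sub_zero] at this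
    rw [← PowerSeries.coeff_zero_eq_constantCoeff_apply, PowerSeries.coeff_mk]
    exact Ideal.pow_le_pow_right (Nat.le_succ N) this
  have hθX : Sm m (θ - PowerSeries.X) := by
    rw [show θ - PowerSeries.X = (θ - (seq 0).1.2) + ((seq 0).1.2 - PowerSeries.X) by ring]
    exact ((hθN 0).mono (Ideal.pow_le_self (Nat.succ_ne_zero 0))).add (seq 0).2.cong
  have hdef : defect H (F.map s) θ = 0 := MvPowerSeries.ext fun e => by
    rw [map_zero]
    refine IsHausdorff.haus' (I := m) _ fun N => ?_
    rw [SModEq.zero, smul_eq_mul, Ideal.mul_top]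
    refine Ideal.pow_le_pow_right (Nat.le_succ N) ((?_ : Sm (m ^ (N + 1)) _) e)
    set q := Ideal.Quotient.mk (m ^ (N + 1))
    have e1 : (F.map s).map q = (F.map (seq N).1.1).map q := by
      refine FormalGroup.ext (MvPowerSeries.ext fun e => ?_)
      simp only [FormalGroup.map_toPowerSeries, coeff_map]
      exact Ideal.Quotient.eq.2 (hsN N _)
    rw [sm_iff, map_defect _ _ _ hθ0, e1,
      show PowerSeries.map q θ = PowerSeries.map q (seq N).1.2 from (sm_sub_iff _ _ _).1 (hθN N),
      ← map_defect _ _ _ (seq N).2.zero]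
    exact (sm_iff _ _).1 (seq N).2.err
  refine ⟨(s, θ), ⟨hs, ⟨hθ0, sub_eq_zero.1 hdef⟩, ?_⟩, ?_⟩
  · rw [← PowerSeries.map_X (Ideal.Quotient.mk m)]
    exact (sm_sub_iff _ _ _).1 hθX
  · rintro ⟨s', θ'⟩ ⟨hs', ⟨hθ'0, hθ'e⟩, hθ'X⟩
    refine unique P hs hs' hθ0 hθ'0 hθX ?_ hdef (sub_eq_zero.2 hθ'e)
    rw [sm_sub_iff]
    exact hθ'X.trans (PowerSeries.map_X _).symm

end Univ

/-- Lubin-Tate universality of F. -/
theorem universality : Universality := Univ.universality_of_normalised Univ.normalised

end Vale.Agent.P217
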