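import Vale.Agent.P217.Univ.Small
import Vale.Agent.P217.Univ.Cocycle
import Vale.Agent.P217.J.Alg

/-!
# P217, universality: cocycles are coboundaries

If the law is X + Y below degree p ^ n modulo m, with a unit at the test monomial of degree p ^ n,
then a small symmetric cocycle without pivot coefficient in the degrees p ^ i, 1 ≤ i < n, is a
coboundary in exactly one way.
-/

noncomputable section

namespace Vale.Agent.P217.Univ

open MvPowerSeries Finset

variable {A : Type} [CommRing A] {I m : Ideal A} {σ : Type}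

/-! ## Linear forms in place of series -/

theorem order_sub_linear {u L : MvPowerSeries σ A} (h0 : ∀ a, a.degree < 2 → coeff a u = coeff a L) :
    ((2 : ℕ) : ℕ∞) ≤ (u - L).order :=
  nat_le_order fun a ha => by rw [map_sub, h0 a ha, sub_self]

theorem coeff_pow_mul_linear {u L w M : MvPowerSeries σ A} (hu : constantCoeff u = 0)
    (hw : constantCoeff w = 0) (hu1 : ∀ a, a.degree < 2 → coeff a u = coeff a L)
    (hw1 : ∀ a, a.degree < 2 → coeff a w = coeff a M) (a b : ℕ) {N : σ →₀ ℕ}
    (hN : N.degree ≤ a + b) : coeff N (u ^ a * w ^ b) = coeff N (L ^ a * M ^ b) := by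
  have hL : constantCoeff L = 0 := by
    rw [← hu, ← coeff_zero_eq_constantCoeff_apply, ← coeff_zero_eq_constantCoeff_apply,
      hu1 0 (by simp)]
  have hM : constantCoeff M = 0 := by
    rw [← hw, ← coeff_zero_eq_constantCoeff_apply, ← coeff_zero_eq_constantCoeff_apply,
      hw1 0 (by simp)]
  have key : ∀ {u L : MvPowerSeries σ A}, constantCoeff u = 0 → constantCoeff L = 0 →
      (∀ c, c.degree < 2 → coeff c u = coeff c L) → ∀ a : ℕ,
      ((a + 1 : ℕ) : ℕ∞) ≤ (u ^ a - L ^ a).order := by
    intro u L hu hL hu1 a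
    rcases Nat.eq_zero_or_pos a with rfl | ha
    · simp
    rw [← geom_sum₂_mul]
    refine le_trans ?_ le_order_mul
    refine le_trans ?_ (add_le_add (?_ : ((a - 1 : ℕ) : ℕ∞) ≤ _) (order_sub_linear hu1))
    · rw [← Nat.cast_add]
      exact_mod_cast (by omega : a + 1 ≤ a - 1 + 2)
    refine nat_le_order fun c hc => ?_
    rw [map_sum]
    refine sum_eq_zero fun i hi => coeff_of_lt_order (lt_of_lt_of_le ?_
      (le_trans (add_le_add (le_order_pow_of_constantCoeff_eq_zero i hu)
        (le_order_pow_of_constantCoeff_eq_zero (a - 1 - i) hL)) le_order_mul))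
    have := mem_range.1 hi
    exact_mod_cast (by omega : c.degree < i + (a - 1 - i))
  rw [← sub_eq_zero, ← map_sub,
    show u ^ a * w ^ b - L ^ a * M ^ b = (u ^ a - L ^ a) * w ^ b + L ^ a * (w ^ b - M ^ b) by ring,
    map_add, coeff_of_lt_order, coeff_of_lt_order, add_zero]
  · refine lt_of_lt_of_le ?_ (le_trans (add_le_add (le_order_pow_of_constantCoeff_eq_zero a hL)
      (key hw hM hw1 b)) le_order_mul)
    exact_mod_cast (by omega : N.degree < a + (b + 1))
  · refine lt_of_lt_of_le ?_ (le_trans (add_le_add (key hu hL hu1 a)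
      (le_order_pow_of_constantCoeff_eq_zero b hw)) le_order_mul)
    exact_mod_cast (by omega : N.degree < a + 1 + b)

theorem degree_two (e : Fin 2 →₀ ℕ) : e.degree = e 0 + e 1 := by
  rw [Finsupp.degree_eq_sum, Fin.sum_univ_two]

/-- the monomial with exponents i and j -/
abbrev bideg (i j : ℕ) : Fin 2 →₀ ℕ := Finsupp.single 0 i + Finsupp.single 1 j

theorem bideg_eta (e : Fin 2 →₀ ℕ) : bideg (e 0) (e 1) = e :=
  Finsupp.ext fun i => by fin_cases i <;> simp

/-- In degree d, a series vanishing below sees only its degree d part and the linear parts. -/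
theorem coeff_subst_lead {E : MvPowerSeries (Fin 2) A} {d : ℕ}
    (hE : ∀ e : Fin 2 →₀ ℕ, e.degree < d → coeff e E = 0) {w L : Fin 2 → MvPowerSeries σ A}
    (hw : ∀ i, constantCoeff (w i) = 0)
    (hw1 : ∀ i a, a.degree < 2 → coeff a (w i) = coeff a (L i)) {N : σ →₀ ℕ} (hN : N.degree = d) :
    coeff N (MvPowerSeries.subst w E) =
      ∑ i ∈ range (d + 1), coeff (bideg i (d - i)) E * coeff N (L 0 ^ i * L 1 ^ (d - i)) := by
  classical
  rw [coeff_subst (hasSubst_of_constantCoeff_zero hw),
    finsum_eq_sum_of_support_subset _ (s := (range (d + 1)).image fun i => bideg i (d - i))]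
  · rw [sum_image fun a _ b _ h => by simpa using congrArg (fun e => e (0 : Fin 2)) h]
    refine sum_congr rfl fun i hi => ?_
    rw [Finsupp.prod_fintype _ _ fun _ => pow_zero _, Fin.prod_univ_two, smul_eq_mul]
    congr 1
    simp only [Finsupp.coe_add, Pi.add_apply, Finsupp.single_apply, Fin.isValue, ↓reduceIte,
      zero_ne_one, one_ne_zero, add_zero, zero_add]
    have := mem_range.1 hi
    exact coeff_pow_mul_linear (hw 0) (hw 1) (hw1 0) (hw1 1) _ _ (by omega)
  · intro e he
    simp only [coe_image, Set.mem_image, Finset.mem_coe, mem_range]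
    by_contra hne
    refine he ?_
    simp only [smul_eq_mul]
    rcases lt_trichotomy e.degree d with h | h | h
    · rw [hE e h, zero_mul]
    · rw [degree_two] at h
      exact absurd ⟨e 0, by omega, by rw [show d - e 0 = e 1 by omega, bideg_eta]⟩ hne
    · refine mul_eq_zero_of_right _ ?_
      rw [Finsupp.prod_fintype _ _ fun _ => pow_zero _, Fin.prod_univ_two]
      refine coeff_of_lt_order ?_
      refine lt_of_lt_of_le ?_ (le_trans (add_le_add (le_order_pow_of_constantCoeff_eq_zero _ (hw 0))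
        (le_order_pow_of_constantCoeff_eq_zero _ (hw 1))) le_order_mul)
      rw [degree_two] at h
      exact_mod_cast (by omega : N.degree < e 0 + e 1)

/-! ## The relations in the lowest degree -/

theorem coeff_X_pow_mul3 (a b : ℕ) (i j : Fin 3) (hij : i ≠ j) (N : Fin 3 →₀ ℕ)
    (hN : N.degree = a + b) :
    coeff N ((X i : MvPowerSeries (Fin 3) A) ^ a * X j ^ b) =
      if N i = a ∧ N j = b then 1 else 0 := by
  classical
  rw [X_pow_eq, X_pow_eq, monomial_mul_monomial, coeff_monomial, one_mul]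
  refine if_congr ?_ rfl rfl
  rw [Finsupp.degree_eq_sum, Fin.sum_univ_three] at hN
  constructor
  · intro h
    rw [h]
    simp [hij, hij.symm]
  · rintro ⟨h1, h2⟩
    refine Finsupp.ext fun s => ?_
    fin_cases i <;> fin_cases j <;> fin_cases s <;> simp_all <;> omega

theorem coeff_sum_pow_mul3 (a b : ℕ) {N : Fin 3 →₀ ℕ} (i j k : Fin 3) (hij : i ≠ j) (hik : i ≠ k)
    (hjk : j ≠ k) (hN : N.degree = a + b) :
    coeff N ((X i + X j : MvPowerSeries (Fin 3) A) ^ a * X k ^ b) =
      if N k = b then (a.choose (N i) : A) else 0 := by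
  classical
  have hdeg : N i + N j + N k = a + b := by
    rw [← hN, Finsupp.degree_eq_sum, Fin.sum_univ_three]
    fin_cases i <;> fin_cases j <;> fin_cases k <;> simp_all <;> omega
  rw [add_pow, Finset.sum_mul, map_sum]
  have hterm : ∀ t ∈ range (a + 1), coeff N ((X i : MvPowerSeries (Fin 3) A) ^ t * X j ^ (a - t) *
      (a.choose t : MvPowerSeries (Fin 3) A) * X k ^ b) =
      if N k = b ∧ N i = t then (a.choose t : A) else 0 := by
    intro t ht
    have ht' := mem_range.1 ht
    rw [← map_natCast (C (σ := Fin 3) (R := A)), mul_right_comm, coeff_mul_C, X_pow_eq, X_pow_eq,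
      X_pow_eq, monomial_mul_monomial, monomial_mul_monomial, coeff_monomial]
    have : N = Finsupp.single i t + Finsupp.single j (a - t) + Finsupp.single k b ↔
        N k = b ∧ N i = t := by
      constructor
      · intro h
        rw [h]
        simp [hik, hjk, hik.symm, hij]
      · rintro ⟨h1, h2⟩
        refine Finsupp.ext fun s => ?_
        fin_cases i <;> fin_cases j <;> fin_cases k <;> fin_cases s <;> simp_all <;> omega
    split_ifs with h1 h2 h2
    · simp
    · exact absurd (this.1 h1) h2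
    · exact absurd (this.2 h2) h1
    · simp
  rw [sum_congr rfl hterm]
  by_cases hb : N k = b
  · rw [if_pos hb, sum_eq_single (N i)]
    · rw [if_pos ⟨hb, rfl⟩]
    · intro t _ ht; rw [if_neg fun h => ht h.2.symm]
    · intro h; exact absurd (mem_range.2 (by omega)) h
  · rw [if_neg hb]
    exact sum_eq_zero fun t _ => if_neg fun h => hb h.1

theorem coeff_subst_pair_linear (H : FormalGroup A) (a b : Fin 3) {c : Fin 3 →₀ ℕ}
    (hc : c.degree < 2) :
    coeff c (MvPowerSeries.subst ![(X a : MvPowerSeries (Fin 3) A), X b] H.toPowerSeries) =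
      coeff c (X a + X b : MvPowerSeries (Fin 3) A) := by
  have hz : ∀ s : Fin 2, constantCoeff (![(X a : MvPowerSeries (Fin 3) A), X b] s) = 0 :=
    fun s => by fin_cases s <;> simp
  rcases Nat.lt_or_ge c.degree 1 with h | h
  · obtain rfl : c = 0 := (Finsupp.degree_eq_zero_iff c).1 (by omega)
    simp [coeff_zero_eq_constantCoeff_apply, constantCoeff_law H (constantCoeff_X a)
      (constantCoeff_X b)]
  · rw [coeff_subst_lead (d := 1) (L := ![X a, X b]) (fun e he => ?_) hz (fun _ _ _ => rfl)
      (by omega), sum_range_succ, sum_range_one]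
    · simp [bideg, H.lin_coeff_X, H.lin_coeff_Y, add_comm]
    · obtain rfl : e = 0 := (Finsupp.degree_eq_zero_iff e).1 (by omega)
      rw [coeff_zero_eq_constantCoeff_apply, H.zero_constantCoeff]

/-- The coefficients in degree d of a cocycle vanishing below degree d. -/
theorem cocycle_rel {H : FormalGroup A} {E : MvPowerSeries (Fin 2) A} (hc : Cocycle H E) {d : ℕ}
    (hE : ∀ e : Fin 2 →₀ ℕ, e.degree < d → coeff e E = 0) {i j : ℕ} (hi : 0 < i) (hj : 0 < j)
    (hij : i + j < d) :
    (i + j).choose i • coeff (bideg (i + j) (d - (i + j))) E =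
      (d - i).choose j • coeff (bideg i (d - i)) E := by
  classical
  set N : Fin 3 →₀ ℕ :=
    Finsupp.single 0 i + Finsupp.single 1 j + Finsupp.single 2 (d - (i + j)) with hNdef
  have h0 : N 0 = i := by simp [hNdef]
  have h1 : N 1 = j := by simp [hNdef]
  have h2 : N 2 = d - (i + j) := by simp [hNdef]
  have hN : N.degree = d := by
    rw [Finsupp.degree_eq_sum, Fin.sum_univ_three, h0, h1, h2]; omega
  have hX : ∀ a b : Fin 3, ∀ s : Fin 2,
      constantCoeff (![(X a : MvPowerSeries (Fin 3) A), X b] s) = 0 :=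
    fun a b s => by fin_cases s <;> simp
  have e := congrArg (coeff N) hc
  rw [map_add, map_add] at e
  rw [coeff_subst_lead hE (L := ![X 0, X 1]) (hX 0 1) (fun _ _ _ => rfl) hN,
    coeff_subst_lead hE (L := ![X 1, X 2]) (hX 1 2) (fun _ _ _ => rfl) hN,
    coeff_subst_lead hE (L := ![X 0 + X 1, X 2])
      (fun s => by
        fin_cases s
        · exact constantCoeff_law H (constantCoeff_X _) (constantCoeff_X _)
        · exact constantCoeff_X _)
      (fun s c hc => by
        fin_cases s
        · exact coeff_subst_pair_linear H 0 1 hc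
        · rfl) hN,
    coeff_subst_lead hE (L := ![X 0, X 1 + X 2])
      (fun s => by
        fin_cases s
        · exact constantCoeff_X _
        · exact constantCoeff_law H (constantCoeff_X _) (constantCoeff_X _))
      (fun s c hc => by
        fin_cases s
        · rfl
        · exact coeff_subst_pair_linear H 1 2 hc) hN] at e
  simp only [Matrix.cons_val_zero, Matrix.cons_val_one, Matrix.cons_val_fin_one] at e
  rw [sum_eq_zero (s := range (d + 1)) (fun t ht => ?_), zero_add] at e
  rotate_left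
  · have := mem_range.1 ht
    rw [coeff_X_pow_mul3 _ _ 0 1 (by decide) N (by omega), if_neg (by omega), mul_zero]
  rw [sum_eq_single (i + j)] at e
  rotate_left
  · intro t ht hne
    have := mem_range.1 ht
    rw [coeff_sum_pow_mul3 _ _ 0 1 2 (by decide) (by decide) (by decide) (by omega),
      if_neg (by omega), mul_zero]
  · intro h
    exact absurd (mem_range.2 (by omega)) h
  conv at e =>
    rhs
    arg 1
    rw [sum_eq_zero (s := range (d + 1)) (fun t ht => by
      have := mem_range.1 ht
      rw [coeff_X_pow_mul3 _ _ 1 2 (by decide) N (by omega), if_neg (by omega), mul_zero])]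
  rw [zero_add, sum_eq_single i] at e
  rotate_left
  · intro t ht hne
    have := mem_range.1 ht
    rw [mul_comm (X 0 ^ t), coeff_sum_pow_mul3 _ _ 1 2 0 (by decide) (by decide) (by decide)
      (by omega), if_neg (by omega), mul_zero]
  · intro h
    exact absurd (mem_range.2 (by omega)) h
  rw [coeff_sum_pow_mul3 _ _ 0 1 2 (by decide) (by decide) (by decide) (by omega), if_pos h2, h0,
    mul_comm (X 0 ^ i), coeff_sum_pow_mul3 _ _ 1 2 0 (by decide) (by decide) (by decide)
      (by omega), if_pos h0, h1] at e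
  rw [nsmul_eq_mul, nsmul_eq_mul, mul_comm, e, mul_comm]

theorem symm_rel {E : MvPowerSeries (Fin 2) A}
    (hs : MvPowerSeries.subst ![(X 1 : MvPowerSeries (Fin 2) A), X 0] E = E) (i j : ℕ) :
    coeff (bideg i j) E = coeff (bideg j i) E := by
  classical
  have hw : HasSubst ![(X 1 : MvPowerSeries (Fin 2) A), X 0] := HasSubst.X_X
  conv_lhs => rw [← hs, coeff_subst hw]
  rw [finsum_eq_single _ (bideg j i)]
  · simp [X_pow_eq, monomial_mul_monomial, add_comm]
  · intro e he
    rw [Finsupp.prod_fintype _ _ fun _ => pow_zero _, Fin.prod_univ_two]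
    simp only [Matrix.cons_val_zero, Matrix.cons_val_one, Matrix.cons_val_fin_one, X_pow_eq,
      monomial_mul_monomial, coeff_monomial]
    rw [if_neg, smul_zero]
    intro h
    exact he (by
      rw [← bideg_eta e, show e 0 = j from by simpa using (congrArg (fun f => f 1) h).symm,
        show e 1 = i from by simpa using (congrArg (fun f => f 0) h).symm])

theorem axis_rel {E : MvPowerSeries (Fin 2) A}
    (hs : MvPowerSeries.subst ![(PowerSeries.X : PowerSeries A), 0] E = 0) (k : ℕ) :
    coeff (bideg k 0) E = 0 := by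
  classical
  have hw : HasSubst ![(PowerSeries.X : PowerSeries A), 0] := HasSubst.X_zero
  have h := congrArg (PowerSeries.coeff k) hs
  rw [PowerSeries.coeff, coeff_subst hw, finsum_eq_single _ (bideg k 0)] at h
  · simpa [PowerSeries.coeff_X_pow] using h
  · intro e he
    rw [Finsupp.prod_fintype _ _ fun _ => pow_zero _, Fin.prod_univ_two]
    simp only [Matrix.cons_val_zero, Matrix.cons_val_one, Matrix.cons_val_fin_one]
    by_cases h1 : e 1 = 0
    · have h0 : e 0 ≠ k := fun h0 => he (by rw [← bideg_eta e, h0, h1])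
      rw [h1, pow_zero, mul_one]
      simp [PowerSeries.X, coeff_X_pow]
      intro h'; exact absurd h'.symm h0
    · rw [zero_pow h1, mul_zero, map_zero, smul_zero]

/-- Symmetric, normalised cocycles. -/
structure Cl (H : FormalGroup A) (E : MvPowerSeries (Fin 2) A) : Prop where
  cocycle : Cocycle H E
  symm : MvPowerSeries.subst ![(X 1 : MvPowerSeries (Fin 2) A), X 0] E = E
  axis : MvPowerSeries.subst ![(PowerSeries.X : PowerSeries A), 0] E = 0

theorem Sq.cl_err (h : Sq I m) {H G : FormalGroup A} [G.IsComm] [H.IsComm] {θ : PowerSeries A}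
    (hθ : PowerSeries.constantCoeff θ = 0) {E : MvPowerSeries (Fin 2) A} (hEs : Sm I E)
    (hE : Err H G θ E) : Cl H E :=
  ⟨h.cocycle hθ hEs hE, h.err_symm hθ hEs hE, h.err_axis hθ hEs hE⟩

theorem Cl.add {H : FormalGroup A} {E E' : MvPowerSeries (Fin 2) A} (h : Cl H E) (h' : Cl H E') :
    Cl H (E + E') := by
  have hw3 : ∀ a b : MvPowerSeries (Fin 3) A, constantCoeff a = 0 → constantCoeff b = 0 →
      MvPowerSeries.subst ![a, b] (E + E') =
        MvPowerSeries.subst ![a, b] E + MvPowerSeries.subst ![a, b] E' := fun a b ha hb =>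
    subst_add (hasSubst_two (.of_constantCoeff_zero ha) (.of_constantCoeff_zero hb)) _ _
  refine ⟨?_, by rw [subst_add HasSubst.X_X, h.symm, h'.symm],
    by rw [subst_add (show HasSubst ![(PowerSeries.X : PowerSeries A), 0] from HasSubst.X_zero),
      h.axis, h'.axis, add_zero]⟩
  unfold Cocycle
  rw [hw3 _ _ (constantCoeff_X _) (constantCoeff_X _),
    hw3 _ _ (constantCoeff_law H (constantCoeff_X _) (constantCoeff_X _)) (constantCoeff_X _),
    hw3 _ _ (constantCoeff_X _) (constantCoeff_X _),
    hw3 _ _ (constantCoeff_X _) (constantCoeff_law H (constantCoeff_X _) (constantCoeff_X _))]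
  have e1 := h.cocycle
  have e2 := h'.cocycle
  unfold Cocycle at e1 e2
  linear_combination e1 + e2

variable {p n : ℕ} [Fact p.Prime]

/-- The law modulo m: X + Y below degree p ^ n, invertible at the test monomial. -/
structure LowLaw (p n : ℕ) (m : Ideal A) (H : FormalGroup A) : Prop where
  pn : 1 ≤ n
  p_mem : (p : A) ∈ m
  low : ∀ e : Fin 2 →₀ ℕ, e.degree < p ^ n →
    coeff e H.toPowerSeries - coeff e (X 0 + X 1 : MvPowerSeries (Fin 2) A) ∈ m
  top : ∃ v, coeff (Strat0.testExp p n) H.toPowerSeries * v - 1 ∈ m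

/-- A small series that is a cocycle vanishes with its pivot in the lowest degree. -/
theorem lowest_zero (h : Sq I m) {H : FormalGroup A} (hL : LowLaw p n m H)
    {E : MvPowerSeries (Fin 2) A} (hEs : Sm I E) (hc : Cl H E) {d : ℕ}
    (hE : ∀ e : Fin 2 →₀ ℕ, e.degree < d → coeff e E = 0)
    (hpiv : 2 ≤ d → coeff (bideg (piv p d) (d - piv p d)) E = 0) :
    ∀ e : Fin 2 →₀ ℕ, e.degree = d → coeff e E = 0 := by
  intro e he
  rw [degree_two] at he
  rcases Nat.eq_zero_or_pos (e 1) with h1 | h1
  · rw [← bideg_eta e, h1]; exact axis_rel hc.axis _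
  rcases Nat.eq_zero_or_pos (e 0) with h0 | h0
  · rw [← bideg_eta e, h0, symm_rel hc.symm]; exact axis_rel hc.axis _
  have hd : 2 ≤ d := by omega
  have hlaz := (cocyclePin p d hd).2.2.2 A (fun i => coeff (bideg i (d - i)) E)
    (fun i => by rw [nsmul_eq_mul, mul_comm]; exact h.mul (hEs _) hL.p_mem)
    (fun i hi hid => by rw [symm_rel hc.symm, show d - (d - i) = i by omega])
    (fun i j hi hj hij => cocycle_rel hc.cocycle hE hi hj hij) (hpiv hd) (e 0) h0 (by omega)
  rwa [show d - e 0 = e 1 by omega, bideg_eta] at hlaz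

theorem cl_vanish (h : Sq I m) {H : FormalGroup A} (hL : LowLaw p n m H)
    {E : MvPowerSeries (Fin 2) A} (hEs : Sm I E) (hc : Cl H E)
    (hp : ∀ d, 2 ≤ d → coeff (bideg (piv p d) (d - piv p d)) E = 0) : E = 0 := by
  suffices main : ∀ d (e : Fin 2 →₀ ℕ), e.degree = d → coeff e E = 0 from
    MvPowerSeries.ext fun e => by simpa using main _ e rfl
  intro d
  induction d using Nat.strong_induction_on with
  | _ d ih => exact lowest_zero h hL hEs hc (fun e he => ih _ he e rfl) (hp d)

/-! ## Coboundaries -/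

/-- The degree in which X ^ a starts to have a coboundary. -/
def key (p n a : ℕ) : ℕ := if a = p ^ Nat.log p a then a * p ^ n else a

theorem key_eq {a b : ℕ} (h : key p n a = key p n b) : a = b := by
  have hp : 1 < p := (Fact.out : p.Prime).one_lt
  have h0 : p ^ n ≠ 0 := pow_ne_zero _ (by omega)
  unfold key at h
  split_ifs at h with ha hb hb
  · exact Nat.eq_of_mul_eq_mul_right (Nat.pos_of_ne_zero h0) h
  · refine absurd ?_ hb
    rw [← h, ha, ← pow_add, Nat.log_pow hp]
  · refine absurd ?_ ha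
    rw [h, hb, ← pow_add, Nat.log_pow hp]
  · exact h

theorem two_le_key (hn : 1 ≤ n) {a : ℕ} (ha : 1 ≤ a) : 2 ≤ key p n a := by
  have hp : 1 < p := (Fact.out : p.Prime).one_lt
  unfold key
  split_ifs with h
  · calc 2 ≤ p ^ n := le_trans hp (Nat.le_self_pow (by omega) p)
      _ ≤ a * p ^ n := Nat.le_mul_of_pos_left _ ha
  · have : a ≠ 1 := fun e => h (by subst e; simp)
    omega

/-- The slot of degree d, if it has one. -/
theorem exists_key {d : ℕ} (hd : 2 ≤ d) (hdi : ∀ i, 1 ≤ i → i < n → d ≠ p ^ i) :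
    ∃ a, 1 ≤ a ∧ key p n a = d := by
  have hp : 1 < p := (Fact.out : p.Prime).one_lt
  by_cases h : d = p ^ Nat.log p d
  · have hlog : n ≤ Nat.log p d := by
      by_contra hlt
      have h1 : 1 ≤ Nat.log p d := by
        rcases Nat.eq_zero_or_pos (Nat.log p d) with h0 | h0
        · rw [h0, pow_zero] at h; omega
        · exact h0
      exact hdi _ h1 (by omega) h
    refine ⟨p ^ (Nat.log p d - n), Nat.one_le_pow _ _ (by omega), ?_⟩
    rw [key, if_pos (by rw [Nat.log_pow hp]), ← pow_add, Nat.sub_add_cancel hlog]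
    exact h.symm
  · exact ⟨d, by omega, by rw [key, if_neg h]⟩

theorem bideg_piv {d : ℕ} (hd : 2 ≤ d) :
    bideg (piv p d) (d - piv p d) 0 ≠ 0 ∧ bideg (piv p d) (d - piv p d) 1 ≠ 0 ∧
      (bideg (piv p d) (d - piv p d)).degree = d := by
  obtain ⟨⟨h1, h2⟩, -⟩ := cocyclePin p d hd
  refine ⟨by simp; omega, by simp; omega, by rw [degree_two]; simp; omega⟩

/-- Modulo m the powers of the law start in their key degree, with an invertible pivot. -/
theorem coeff_law_pow (h : Sq I m) {H : FormalGroup A} (hL : LowLaw p n m H) {a : ℕ} (ha : 1 ≤ a)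
    {e : A} (he : e ∈ I) :
    (∀ x : Fin 2 →₀ ℕ, x 0 ≠ 0 → x 1 ≠ 0 → x.degree < key p n a →
      e * coeff x (H.toPowerSeries ^ a) = 0) ∧
    ∃ v : A, e * (coeff (bideg (piv p (key p n a)) (key p n a - piv p (key p n a)))
      (H.toPowerSeries ^ a) * v) = e := by
  classical
  have hp := (Fact.out : p.Prime)
  have hkey := two_le_key (p := p) hL.pn ha
  obtain ⟨⟨hpiv0, hpivd⟩, hnp, -, -⟩ := cocyclePin p (key p n a) hkey
  by_cases hpw : a = p ^ Nat.log p a
  swap
  · have hk : key p n a = a := if_neg hpw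
    rw [hk] at hpiv0 hpivd hnp ⊢
    have hdeg : (bideg (piv p a) (a - piv p a)).degree = a := by
      rw [degree_two]; simp; omega
    refine ⟨fun x _ _ hx => by
      rw [FE.coeff_pow_eq_zero_of_degree_lt H.zero_constantCoeff hx, mul_zero], ?_⟩
    obtain ⟨u, -, hu⟩ := Nat.exists_mul_mod_eq_one_of_coprime
      ((hp.coprime_iff_not_dvd.2 (hnp hpw)).symm) hp.one_lt
    refine ⟨(u : A), ?_⟩
    rw [Strat0.coeff_pow_eq_linear H.zero_constantCoeff H.lin_coeff_X H.lin_coeff_Y hdeg.le,
      Strat0.coeff_add_pow hpivd.le (by simp) (by simp), ← Nat.cast_mul,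
      ← Nat.mod_add_div (a.choose (piv p a) * u) p, hu, Nat.cast_add, Nat.cast_one, Nat.cast_mul,
      mul_add, mul_one, h.mul he (Ideal.mul_mem_right _ _ hL.p_mem), add_zero]
  set j := Nat.log p a
  by_cases htop : m = ⊤
  · have : e = 0 := by simpa using h.mul he (htop ▸ Submodule.mem_top : (1 : A) ∈ m)
    subst this
    exact ⟨fun x _ _ _ => zero_mul _, 0, zero_mul _⟩
  have : Nontrivial (A ⧸ m) := Ideal.Quotient.nontrivial_iff.2 htop
  have hp0 : (p : A ⧸ m) = 0 := by
    rw [← map_natCast (Ideal.Quotient.mk m), Ideal.Quotient.eq_zero_iff_mem]; exact hL.p_mem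
  have : CharP (A ⧸ m) p := by
    have hd : ringChar (A ⧸ m) ∣ p := (ringChar.spec _ p).1 hp0
    rcases (Nat.dvd_prime hp).1 hd with h1 | h1
    · exact absurd h1 CharP.ringChar_ne_one
    · exact h1 ▸ ringChar.charP _
  set q := Ideal.Quotient.mk m
  have hmul : ∀ {x y : A}, q x = q y → e * x = e * y := fun hxy => by
    rw [← sub_eq_zero, ← mul_sub]; exact h.mul he (Ideal.Quotient.eq.1 hxy)
  have hk : key p n a = p ^ (j + n) := by rw [key, if_pos hpw, pow_add, ← hpw]
  have hpiv : bideg (piv p (key p n a)) (key p n a - piv p (key p n a)) =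
      p ^ j • Strat0.testExp p n := by
    rw [hk, piv, Nat.log_pow hp.one_lt, if_pos rfl]
    have hn := hL.pn
    have e1 : p ^ j * p ^ (n - 1) = p ^ (j + n - 1) := by
      rw [← pow_add]; congr 1; omega
    ext s
    fin_cases s
    · simp [Strat0.testExp_zero, e1]
    · simp [Strat0.testExp_one, Nat.mul_sub, e1, ← pow_add]
  refine ⟨fun x hx0 hx1 hx => ?_, ?_⟩
  · refine (hmul (y := 0) ?_).trans (mul_zero _)
    rw [map_zero, ← coeff_map, map_pow, hpw]
    by_cases hdiv : ∀ s, p ^ j ∣ x s
    swap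
    · push Not at hdiv
      obtain ⟨s, hs⟩ := hdiv
      exact Strat0.coeff_frob_pow_eq_zero _ _ hs
    choose y hy using hdiv
    obtain rfl : x = p ^ j • bideg (y 0) (y 1) := Finsupp.ext fun s => by
      fin_cases s <;> simp [hy 0, hy 1]
    rw [Strat0.coeff_frob_pow, coeff_map]
    have hy0 : y 0 ≠ 0 := fun h0 => hx0 (by simp [h0])
    have hy1 : y 1 ≠ 0 := fun h0 => hx1 (by simp [h0])
    have hlt : (bideg (y 0) (y 1)).degree < p ^ n := by
      rw [map_nsmul, hk, pow_add, smul_eq_mul] at hx
      exact Nat.lt_of_mul_lt_mul_left hx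
    rw [Ideal.Quotient.eq.2 (hL.low _ hlt), map_add, coeff_X, coeff_X, if_neg, if_neg, add_zero,
      map_zero, zero_pow (pow_ne_zero _ hp.ne_zero)]
    all_goals intro h'
    · exact hy0 (by simpa using congrArg (fun f => f (0 : Fin 2)) h')
    · exact hy1 (by simpa using congrArg (fun f => f (1 : Fin 2)) h')
  · obtain ⟨v, hv⟩ := hL.top
    refine ⟨v ^ p ^ j, (hmul (y := 1) ?_).trans (mul_one e)⟩
    rw [hpiv, map_mul, map_pow q v, hpw, ← coeff_map, map_pow (MvPowerSeries.map q),
      Strat0.coeff_frob_pow, coeff_map, ← mul_pow, ← map_mul, Ideal.Quotient.eq.2 hv, map_one,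
      one_pow]

theorem subst_cob {H : FormalGroup A} {ψ : PowerSeries A} {τ : Type} {a b : MvPowerSeries τ A}
    (ha : constantCoeff a = 0) (hb : constantCoeff b = 0) :
    MvPowerSeries.subst ![a, b] (cob H ψ) =
      PowerSeries.subst (MvPowerSeries.subst ![a, b] H.toPowerSeries) ψ - PowerSeries.subst a ψ -
        PowerSeries.subst b ψ := by
  have hw := hasSubst_two (PowerSeries.HasSubst.of_constantCoeff_zero ha)
    (PowerSeries.HasSubst.of_constantCoeff_zero hb)
  rw [cob, subst_sub hw, subst_sub hw,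
    subst_series hw (.of_constantCoeff_zero H.zero_constantCoeff),
    subst_series hw (.X _), subst_series hw (.X _), subst_X hw, subst_X hw]
  rfl

theorem cl_cob {H : FormalGroup A} [H.IsComm] {ψ : PowerSeries A}
    (hψ : PowerSeries.constantCoeff ψ = 0) : Cl H (cob H ψ) := by
  refine ⟨?_, ?_, ?_⟩
  · unfold Cocycle
    rw [subst_cob (constantCoeff_X _) (constantCoeff_X _),
      subst_cob (constantCoeff_law H (constantCoeff_X _) (constantCoeff_X _)) (constantCoeff_X _),
      subst_cob (constantCoeff_X _) (constantCoeff_X _),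
      subst_cob (constantCoeff_X _) (constantCoeff_law H (constantCoeff_X _) (constantCoeff_X _)),
      H.assoc' (.X _) (.X _) (.X _)]
    ring
  · rw [subst_cob (constantCoeff_X _) (constantCoeff_X _), H.comm' (.X _) (.X _), cob,
      show ![(X 0 : MvPowerSeries (Fin 2) A), X 1] = X from by funext i; fin_cases i <;> rfl,
      MvPowerSeries.subst_self, id]
    ring
  · rw [subst_cob PowerSeries.constantCoeff_X (map_zero _), H.add_zero PowerSeries.HasSubst.X',
      PowerSeries.subst_zero_of_constantCoeff_zero hψ]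
    simp

theorem cob_add {H : FormalGroup A} (ψ w : PowerSeries A) :
    cob H (ψ + w) = cob H ψ + cob H w := by
  simp only [cob, PowerSeries.subst_add (.of_constantCoeff_zero H.zero_constantCoeff),
    PowerSeries.subst_add (PowerSeries.HasSubst.X (S := A) (0 : Fin 2)),
    PowerSeries.subst_add (PowerSeries.HasSubst.X (S := A) (1 : Fin 2))]
  ring

theorem coeff_subst_X_mixed (ψ : PowerSeries A) {x : Fin 2 →₀ ℕ} (hx0 : x 0 ≠ 0) (hx1 : x 1 ≠ 0)
    (i : Fin 2) : coeff x (PowerSeries.subst (X i : MvPowerSeries (Fin 2) A) ψ) = 0 := by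
  classical
  rw [PowerSeries.coeff_subst_single, if_neg]
  intro e
  fin_cases i
  · exact hx1 (by rw [e]; simp)
  · exact hx0 (by rw [e]; simp)

theorem coeff_cob_eq {H : FormalGroup A} (ψ : PowerSeries A) {x : Fin 2 →₀ ℕ} (hx0 : x 0 ≠ 0)
    (hx1 : x 1 ≠ 0) : coeff x (cob H ψ) =
      ∑ᶠ a : ℕ, PowerSeries.coeff a ψ * coeff x (H.toPowerSeries ^ a) := by
  rw [cob, map_sub, map_sub, coeff_subst_X_mixed ψ hx0 hx1, coeff_subst_X_mixed ψ hx0 hx1,
    sub_zero, sub_zero, PowerSeries.coeff_subst (.of_constantCoeff_zero H.zero_constantCoeff)]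
  simp [smul_eq_mul]

/-- In degree d the coboundary only sees the coefficient whose key is d. -/
theorem coeff_cob (h : Sq I m) {H : FormalGroup A} (hL : LowLaw p n m H) {ψ : PowerSeries A}
    (hψ : Sm I ψ) (hψ0 : PowerSeries.constantCoeff ψ = 0) {x : Fin 2 →₀ ℕ} (hx0 : x 0 ≠ 0)
    (hx1 : x 1 ≠ 0) (hz : ∀ a, 1 ≤ a → key p n a < x.degree → PowerSeries.coeff a ψ = 0)
    {a : ℕ} (hka : key p n a = x.degree) :
    coeff x (cob H ψ) = PowerSeries.coeff a ψ * coeff x (H.toPowerSeries ^ a) := by
  rw [coeff_cob_eq ψ hx0 hx1]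
  refine finsum_eq_single _ a fun b hb => ?_
  rcases Nat.eq_zero_or_pos b with rfl | hb0
  · rw [PowerSeries.coeff_zero_eq_constantCoeff_apply, hψ0, zero_mul]
  rcases lt_trichotomy (key p n b) x.degree with hl | hl | hl
  · rw [hz b hb0 hl, zero_mul]
  · exact absurd (key_eq (hl.trans hka.symm)) hb
  · exact (coeff_law_pow h hL hb0 (hψ (Finsupp.single () b))).1 x hx0 hx1 hl

/-- A coboundary has nothing in the mixed degrees p ^ i, 1 ≤ i < n. -/
theorem coeff_cob_low (h : Sq I m) {H : FormalGroup A} (hL : LowLaw p n m H) {ψ : PowerSeries A}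
    (hψ : Sm I ψ) {i : ℕ} (hin : i < n) {x : Fin 2 →₀ ℕ} (hx0 : x 0 ≠ 0)
    (hx1 : x 1 ≠ 0) (hx : x.degree = p ^ i) : coeff x (cob H ψ) = 0 := by
  classical
  have hp := (Fact.out : p.Prime)
  rw [coeff_cob_eq ψ hx0 hx1]
  refine finsum_eq_zero_of_forall_eq_zero fun a => ?_
  set q := Ideal.Quotient.mk m
  have hag : FE.AgreeUpTo x.degree (MvPowerSeries.map q H.toPowerSeries)
      (MvPowerSeries.map q (X 0 + X 1)) := fun c hc => by
    rw [coeff_map, coeff_map]
    exact Ideal.Quotient.eq.2 (hL.low c (lt_of_le_of_lt hc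
      (hx ▸ Nat.pow_lt_pow_right hp.one_lt hin)))
  have e := hag.pow a x le_rfl
  rw [← map_pow, ← map_pow, coeff_map, coeff_map, Ideal.Quotient.eq] at e
  have hlin : coeff x ((X 0 + X 1 : MvPowerSeries (Fin 2) A) ^ a) ∈ m := by
    rw [degree_two] at hx
    by_cases ha : a = p ^ i
    · rw [Strat0.coeff_add_pow (i := x 0) (by omega) rfl (by omega)]
      obtain ⟨r, hr⟩ : p ∣ a.choose (x 0) := ha ▸ hp.dvd_choose_pow hx0 (by omega)
      rw [hr, Nat.cast_mul]
      exact Ideal.mul_mem_right _ _ hL.p_mem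
    · rw [add_pow, map_sum, sum_eq_zero fun t ht => ?_]
      · exact m.zero_mem
      rw [← map_natCast (C (σ := Fin 2) (R := A)), coeff_mul_C, X_pow_eq, X_pow_eq,
        monomial_mul_monomial, coeff_monomial, if_neg, zero_mul]
      intro hc
      have := mem_range.1 ht
      have h0 := congrArg (fun f => f (0 : Fin 2)) hc
      have h1 := congrArg (fun f => f (1 : Fin 2)) hc
      simp at h0 h1
      omega
  exact h.mul (hψ (Finsupp.single () a)) (by simpa using m.add_mem e hlin)

/-- Only zero has no coboundary. -/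
theorem cob_injective (h : Sq I m) {H : FormalGroup A} (hL : LowLaw p n m H) {ψ : PowerSeries A}
    (hψ : Sm I ψ) (hψ0 : PowerSeries.constantCoeff ψ = 0) (hc : cob H ψ = 0) : ψ = 0 := by
  suffices main : ∀ d a, 1 ≤ a → key p n a = d → PowerSeries.coeff a ψ = 0 by
    ext a
    rcases Nat.eq_zero_or_pos a with rfl | ha
    · simpa using hψ0
    · simpa using main _ a ha rfl
  intro d
  induction d using Nat.strong_induction_on with
  | _ d ih =>
    intro a ha hk
    obtain ⟨b0, b1, bd⟩ := bideg_piv (p := p) (hk ▸ two_le_key hL.pn ha : 2 ≤ d)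
    have e := coeff_cob h hL hψ hψ0 b0 b1 (fun c hc' hlt => ih _ (bd ▸ hlt) c hc' rfl)
      (hk.trans bd.symm)
    rw [hc, map_zero] at e
    obtain ⟨v, hv⟩ := (coeff_law_pow h hL ha (hψ (Finsupp.single () a))).2
    rw [hk] at hv
    change PowerSeries.coeff a ψ * _ = PowerSeries.coeff a ψ at hv
    rw [← hv, ← mul_assoc, ← e, zero_mul]

/-- A series killing the pivots of a small series outside the degrees p ^ i. -/
theorem exists_cob_pivots (h : Sq I m) {H : FormalGroup A} (hL : LowLaw p n m H)
    {E : MvPowerSeries (Fin 2) A} (hEs : Sm I E) :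
    ∃ ψ : PowerSeries A, Sm I ψ ∧ PowerSeries.constantCoeff ψ = 0 ∧ ∀ a, 1 ≤ a →
      coeff (bideg (piv p (key p n a)) (key p n a - piv p (key p n a))) (E + cob H ψ) = 0 := by
  classical
  let pv : ℕ → Fin 2 →₀ ℕ := fun a => bideg (piv p (key p n a)) (key p n a - piv p (key p n a))
  suffices main : ∀ D, ∃ ψ : PowerSeries A, Sm I ψ ∧ PowerSeries.constantCoeff ψ = 0 ∧
      (∀ a, 1 ≤ a → D ≤ key p n a → PowerSeries.coeff a ψ = 0) ∧
      ∀ a, 1 ≤ a → key p n a < D → coeff (pv a) (E + cob H ψ) = 0 by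
    choose ψ hψ hψ0 hψz hψp using main
    -- the stages agree
    have agree : ∀ d D D', d < D → d < D' → ∀ a, 1 ≤ a → key p n a = d →
        PowerSeries.coeff a (ψ D) = PowerSeries.coeff a (ψ D') := by
      intro d
      induction d using Nat.strong_induction_on with
      | _ d ih =>
        intro D D' hD hD' a ha hk
        subst hk
        obtain ⟨b0, b1, bd⟩ := bideg_piv (p := p) (two_le_key (p := p) hL.pn ha)
        have hsub : ∀ c, 1 ≤ c → key p n c < (pv a).degree →
            PowerSeries.coeff c (ψ D - ψ D') = 0 := fun c hc hlt => by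
          have hlt' : key p n c < key p n a := bd ▸ hlt
          rw [map_sub, ih _ hlt' D D' (by omega) (by omega) c hc rfl, sub_self]
        have e := coeff_cob h hL ((hψ D).sub (hψ D')) (by simp [hψ0]) b0 b1 hsub bd.symm
        have hcob : cob H (ψ D - ψ D') = (E + cob H (ψ D)) - (E + cob H (ψ D')) := by
          rw [eq_sub_iff_add_eq, add_left_comm, ← cob_add, sub_add_cancel]
        rw [hcob, map_sub, hψp D a ha hD, hψp D' a ha hD', sub_zero] at e
        obtain ⟨v, hv⟩ := (coeff_law_pow h hL ha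
          (((hψ D).sub (hψ D')) (Finsupp.single () a))).2
        change PowerSeries.coeff a (ψ D - ψ D') * _ = PowerSeries.coeff a (ψ D - ψ D') at hv
        rw [← sub_eq_zero, ← map_sub, ← hv, ← mul_assoc, ← e, zero_mul]
    let Ψ : PowerSeries A := PowerSeries.mk fun a =>
      if a = 0 then 0 else PowerSeries.coeff a (ψ (key p n a + 1))
    have hΨ : Sm I Ψ := fun s => by
      have : PowerSeries.coeff (s ()) Ψ ∈ I := by
        rw [PowerSeries.coeff_mk]
        split_ifs
        · exact I.zero_mem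
        · exact hψ _ _
      rwa [show s = Finsupp.single () (s ()) from Finsupp.ext fun u => by simp]
    refine ⟨Ψ, hΨ, by simp [Ψ], fun a ha => ?_⟩
    obtain ⟨b0, b1, bd⟩ := bideg_piv (p := p) (two_le_key (p := p) hL.pn ha)
    set D := key p n a + 1
    have hsub : ∀ c, 1 ≤ c → key p n c ≤ key p n a →
        PowerSeries.coeff c (Ψ - ψ D) = 0 := fun c hc hle => by
      rw [map_sub, sub_eq_zero, PowerSeries.coeff_mk, if_neg (by omega)]
      exact agree _ _ _ (Nat.lt_succ_self _) (by omega) c hc rfl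
    have e := coeff_cob h hL (hΨ.sub (hψ D)) (by simp [Ψ, hψ0]) b0 b1
      (fun c hc hlt => hsub c hc (bd ▸ hlt).le) bd.symm
    rw [hsub a ha le_rfl, zero_mul] at e
    rw [show Ψ = ψ D + (Ψ - ψ D) by ring, cob_add, ← add_assoc, map_add, e,
      hψp D a ha (Nat.lt_succ_self _), add_zero]
  intro D
  induction D with
  | zero =>
    exact ⟨0, sm_zero, map_zero _, fun a _ _ => map_zero _, fun a _ h => absurd h (by omega)⟩
  | succ D ih =>
    obtain ⟨ψ, hψ, hψ0, hψz, hψp⟩ := ih
    by_cases hex : ∃ a, 1 ≤ a ∧ key p n a = D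
    swap
    · push Not at hex
      refine ⟨ψ, hψ, hψ0, fun a ha hD => hψz a ha (by omega), fun a ha hD => hψp a ha ?_⟩
      have := hex a ha
      omega
    obtain ⟨a, ha, hka⟩ := hex
    obtain ⟨b0, b1, bd⟩ := bideg_piv (p := p) (two_le_key (p := p) hL.pn ha)
    set t := coeff (pv a) (E + cob H ψ) with ht
    have htI : t ∈ I := (hEs.add (sm_cob hψ)) _
    obtain ⟨v, hv⟩ := (coeff_law_pow h hL ha htI).2
    let w : PowerSeries A := PowerSeries.monomial a (-(t * v))
    have hw : Sm I w := fun s => by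
      have : PowerSeries.coeff (s ()) w ∈ I := by
        rw [PowerSeries.coeff_monomial]
        split_ifs
        · exact I.neg_mem (Ideal.mul_mem_right _ _ htI)
        · exact I.zero_mem
      rwa [show s = Finsupp.single () (s ()) from Finsupp.ext fun u => by simp]
    have hw0 : PowerSeries.constantCoeff w = 0 := by
      rw [← PowerSeries.coeff_zero_eq_constantCoeff_apply, PowerSeries.coeff_monomial,
        if_neg (by omega)]
    refine ⟨ψ + w, hψ.add hw, by simp [hψ0, hw0], fun c hc hD => ?_, fun c hc hD => ?_⟩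
    · rw [map_add, hψz c hc (by omega), PowerSeries.coeff_monomial, if_neg, add_zero]
      rintro rfl
      omega
    obtain ⟨c0, c1, cd⟩ := bideg_piv (p := p) (two_le_key (p := p) hL.pn hc)
    have hz : ∀ b, 1 ≤ b → key p n b < (pv c).degree → PowerSeries.coeff b w = 0 :=
      fun b _ hlt => by
        rw [PowerSeries.coeff_monomial, if_neg]
        rintro rfl
        have : key p n b < key p n c := cd ▸ hlt
        omega
    have hcc := coeff_cob h hL hw hw0 c0 c1 hz cd.symm
    rw [cob_add, ← add_assoc, map_add, hcc, PowerSeries.coeff_monomial]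
    by_cases hca : c = a
    · subst hca
      rw [if_pos rfl, ← ht]
      linear_combination -hv
    · rw [if_neg hca, zero_mul, add_zero]
      exact hψp c hc (lt_of_le_of_ne (by omega) fun e => hca (key_eq (e.trans hka.symm)))

/-- A cocycle without pivots in the degrees p ^ i, 1 ≤ i < n, is a coboundary. -/
theorem exists_cob (h : Sq I m) {H : FormalGroup A} [H.IsComm] (hL : LowLaw p n m H)
    {E : MvPowerSeries (Fin 2) A} (hEs : Sm I E) (hc : Cl H E)
    (hp : ∀ i, 1 ≤ i → i < n → coeff (bideg (piv p (p ^ i)) (p ^ i - piv p (p ^ i))) E = 0) :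
    ∃ ψ : PowerSeries A, Sm I ψ ∧ PowerSeries.constantCoeff ψ = 0 ∧ E + cob H ψ = 0 := by
  obtain ⟨ψ, hψ, hψ0, hψp⟩ := exists_cob_pivots h hL hEs
  refine ⟨ψ, hψ, hψ0, cl_vanish h hL (hEs.add (sm_cob hψ)) (hc.add (cl_cob hψ0)) fun d hd => ?_⟩
  by_cases hex : ∃ a, 1 ≤ a ∧ key p n a = d
  · obtain ⟨a, ha, rfl⟩ := hex
    exact hψp a ha
  push Not at hex
  obtain ⟨b0, b1, bd⟩ := bideg_piv (p := p) hd
  obtain ⟨i, hi1, hin, hdi⟩ : ∃ i, 1 ≤ i ∧ i < n ∧ d = p ^ i := by
    by_contra hno
    push Not at hno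
    obtain ⟨a, ha, hk⟩ := exists_key (p := p) (n := n) hd hno
    exact hex a ha hk
  subst hdi
  rw [map_add, hp i hi1 hin, zero_add]
  exact coeff_cob_low h hL hψ hin b0 b1 bd

end Vale.Agent.P217.Univ
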