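import Vale.Agent.P217.Univ.Low
import Vale.Agent.P217.Univ.Solve
import Vale.Agent.P217.EF.Univ
import Vale.Agent.P217.Univ.Eval

/-!
# P217, universality: one square-zero step

Over A with I m = 0 a map of laws from H to the image of F that is a homomorphism modulo I becomes
one after exactly one change, by elements of I, of the parameters and of the series.
-/

noncomputable section

namespace Vale.Agent.P217.Univ

open MvPowerSeries Finset

variable {p n : ℕ} [Fact p.Prime] {A : Type} [CommRing A] {I m : Ideal A}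

/-- The defect of θ as a map from H to G. -/
def defect (H G : FormalGroup A) (θ : PowerSeries A) : MvPowerSeries (Fin 2) A :=
  PowerSeries.subst H.toPowerSeries θ - MvPowerSeries.subst
    ![PowerSeries.subst (X 0 : MvPowerSeries (Fin 2) A) θ,
      PowerSeries.subst (X 1 : MvPowerSeries (Fin 2) A) θ] G.toPowerSeries

theorem err_zero_iff (H G : FormalGroup A) {θ : PowerSeries A}
    (hθ : PowerSeries.constantCoeff θ = 0) : Err H G θ 0 ↔ defect H G θ = 0 := by
  rw [Err, defect, sub_eq_zero, G.add_zero (PowerSeries.HasSubst.of_constantCoeff_zero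
    (constantCoeff_law G (PowerSeries.constantCoeff_subst_eq_zero (constantCoeff_X _) _ hθ)
      (PowerSeries.constantCoeff_subst_eq_zero (constantCoeff_X _) _ hθ)))]

theorem isComm_map {B : Type} [CommRing B] (G : FormalGroup A) [hG : G.IsComm] (f : A →+* B) :
    (G.map f).IsComm := by
  refine ⟨?_⟩
  have h := congrArg (MvPowerSeries.map f) hG.comm
  rw [map_subst HasSubst.X_X] at h
  refine h.trans ?_
  congr 1
  funext i
  fin_cases i <;> simp

/-- The test exponent in degree p ^ (k + 1). -/
abbrev pivx (p : ℕ) {n : ℕ} (k : Fin (n - 1)) : Fin 2 →₀ ℕ :=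
  bideg (piv p (p ^ (k.1 + 1))) (p ^ (k.1 + 1) - piv p (p ^ (k.1 + 1)))

theorem two_le_pow_succ (k : ℕ) : 2 ≤ p ^ (k + 1) :=
  le_trans (Fact.out : p.Prime).one_lt (Nat.le_self_pow (Nat.succ_ne_zero k) p)

/-- A map out of E0 carrying the maximal ideal into m. -/
def Local (m : Ideal A) (s : E0 p n →+* A) : Prop := ∀ b, residue b = 0 → s b ∈ m

theorem local_congr {s : E0 p n →+* A} (hs : Local m s) {b b' : E0 p n}
    (h : residue b = residue b') : s b - s b' ∈ m := by
  rw [← map_sub]; exact hs _ (by rw [map_sub, h, sub_self])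

theorem lowLaw (hn : 1 ≤ n) {F : FormalGroup (E0 p n)} (hF : IsUniversalDeformation p n F)
    {s : E0 p n →+* A} (hs : Local m s) {H : FormalGroup A}
    (hHF : Sm m (H.toPowerSeries - (F.map s).toPowerSeries)) : LowLaw p n m H := by
  classical
  have hc : ∀ e, coeff e H.toPowerSeries - s (coeff e F.toPowerSeries) ∈ m := fun e => by
    simpa [FormalGroup.map_toPowerSeries] using hHF e
  have hpm : (p : A) ∈ m := by
    rw [← map_natCast s]; exact hs _ (by rw [map_natCast, CharP.cast_eq_zero])
  refine ⟨hn, hpm, fun e he => ?_, ?_⟩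
  · rw [degree_two] at he
    by_cases h2 : e 0 ≠ 0 ∧ e 1 ≠ 0
    · have h0 : coeff e (X 0 + X 1 : MvPowerSeries (Fin 2) A) = 0 := by
        rw [map_add, coeff_X, coeff_X, if_neg, if_neg, add_zero]
        all_goals intro h'
        · exact h2.1 (by rw [h']; simp)
        · exact h2.2 (by rw [h']; simp)
      rw [h0, sub_zero]
      simpa using m.add_mem (hc e) (hs _ (Strat0.residue_coeff_low hF hn h2.1 h2.2
        (by rw [degree_two]; exact he)))
    · rcases (by omega : e 1 = 0 ∨ e 0 = 0) with h1 | h1
      · rw [← bideg_eta e, h1, bideg, Finsupp.single_zero, add_zero, coeff_axis, map_add, coeff_X,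
          coeff_X]
        simp [Finsupp.single_eq_single_iff]
      · have hy : coeff e H.toPowerSeries = if e 1 = 1 then 1 else 0 := by
          have h := congrArg (PowerSeries.coeff (e 1)) H.zeroX_eq_X
          rw [PowerSeries.coeff_X] at h
          rw [← h, PowerSeries.coeff, FormalGroup.zeroX]
          have hz : HasSubst ![0, (PowerSeries.X : PowerSeries A)] := HasSubst.zero_X
          rw [coeff_subst hz, finsum_eq_single _ e]
          · simp [h1, PowerSeries.coeff_X_pow]
          · intro d hd
            by_cases h3 : d 0 = 0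
            · have : d 1 ≠ e 1 := fun h4 => hd (Finsupp.ext fun t => by
                fin_cases t <;> simp [h1, h3, h4])
              simp [h3, PowerSeries.X, coeff_X_pow]
              intro h5; exact absurd h5.symm this
            · simp [h3]
        rw [hy, map_add, coeff_X, coeff_X]
        have e0 : e = Finsupp.single 1 (e 1) := Finsupp.ext fun t => by fin_cases t <;> simp [h1]
        by_cases h4 : e 1 = 1
        · rw [if_pos h4, if_neg (fun h' => by simpa [h1] using congrArg (fun f => f (0 : Fin 2)) h'),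
            if_pos (by rw [e0, h4]), zero_add, sub_self]
          exact m.zero_mem
        · rw [if_neg h4, if_neg (fun h' => by simpa [h1] using congrArg (fun f => f (0 : Fin 2)) h'),
            if_neg (fun h' => h4 (by rw [h']; simp)), add_zero, sub_self]
          exact m.zero_mem
  · obtain ⟨b, hb⟩ := CPoint.residue_surjective (p := p) (n := n)
      (residue (coeff (Strat0.testExp p n) F.toPowerSeries))⁻¹
    refine ⟨s b, ?_⟩
    have h1 := local_congr hs (b := coeff (Strat0.testExp p n) F.toPowerSeries * b) (b' := 1)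
      (by rw [map_mul, hb, map_one, mul_inv_cancel₀ (Strat0.residue_coeff_test hF hn)])
    rw [map_mul, map_one] at h1
    simpa [sub_mul] using m.add_mem (Ideal.mul_mem_right (s b) m (hc (Strat0.testExp p n))) h1

/-- The coefficients linear in the parameters at the test exponents. -/
theorem linear_at_piv {F : FormalGroup (E0 p n)} (hF : IsUniversalDeformation p n F)
    (i k : Fin (n - 1)) :
    (i = k → WittVector.constantCoeff
      (coeff (Finsupp.single k 1) (coeff (pivx p i) F.toPowerSeries)) ≠ 0) ∧
    (i ≠ k → WittVector.constantCoeff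
      (coeff (Finsupp.single k 1) (coeff (pivx p i) F.toPowerSeries)) = 0) := by
  classical
  have hp := (Fact.out : p.Prime)
  obtain ⟨b0, b1, bd⟩ := bideg_piv (p := p) (two_le_pow_succ (p := p) i.1)
  obtain ⟨⟨-, hlt⟩, -, hpow, -⟩ := cocyclePin p _ (two_le_pow_succ (p := p) i.1)
  obtain ⟨hdiv, hndiv⟩ := hpow (by rw [Nat.log_pow hp.one_lt])
  have hx : (pivx p i).degree < p ^ n := by
    rw [bd]; exact Nat.pow_lt_pow_right hp.one_lt (by have := i.2; omega)
  have h := (law_low hF k hx).2
  rw [map_sub, Strat0.coeff_X_pow_mixed b0 b1, zero_sub] at h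
  refine ⟨fun hik => ?_, fun hik => ?_⟩
  · subst hik
    rw [Strat0.coeff_add_pow hlt.le (by simp) (by simp)] at h
    obtain ⟨t, ht⟩ := hdiv _ (by simpa using b0.bot_lt) hlt
    have htp : ¬p ∣ t := fun ⟨u, hu⟩ => hndiv ⟨u, by rw [ht, hu]; ring⟩
    rw [ht, Nat.cast_mul, ← mul_neg] at h
    rw [mul_left_cancel₀ (WittVector.p_nonzero p (GaloisField p n)) h, map_neg, map_natCast,
      neg_ne_zero]
    exact fun hz => htp ((CharP.cast_eq_zero_iff (GaloisField p n) p t).1 hz)
  · have hz : coeff (pivx p i) ((X 0 + X 1 :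
        MvPowerSeries (Fin 2) (WittVector p (GaloisField p n))) ^ p ^ (k.1 + 1)) = 0 := by
      have hne : p ^ (i.1 + 1) ≠ p ^ (k.1 + 1) := fun e => hik (Fin.ext (by
        have := Nat.pow_right_injective hp.one_lt e; omega))
      rw [add_pow, map_sum]
      refine sum_eq_zero fun t ht => ?_
      rw [← map_natCast (C (σ := Fin 2) (R := WittVector p (GaloisField p n))), coeff_mul_C,
        X_pow_eq, X_pow_eq, monomial_mul_monomial, coeff_monomial, if_neg, zero_mul]
      intro hc
      have := mem_range.1 ht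
      have h0 := congrArg (fun f => f (0 : Fin 2)) hc
      have h1 := congrArg (fun f => f (1 : Fin 2)) hc
      simp at h0 h1
      omega
    rw [hz, neg_zero, mul_eq_zero] at h
    rw [h.resolve_left (WittVector.p_nonzero p (GaloisField p n)), map_zero]

/-- Moving the parameters by I moves a test coefficient by one invertible multiple. -/
theorem shift_piv (h : Sq I m) {F : FormalGroup (E0 p n)} (hF : IsUniversalDeformation p n F)
    {s : E0 p n →+* A} (hs : Local m s) (i : Fin (n - 1)) :
    ∃ u v : A, u * v - 1 ∈ m ∧ ∀ s' : E0 p n →+* A, (∀ b, s' b - s b ∈ I) →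
      (∀ w, s' (constants w) = s (constants w)) →
      coeff (pivx p i) ((F.map s').toPowerSeries - (F.map s).toPowerSeries) =
        (s' (X i) - s (X i)) * u := by
  classical
  set c := coeff (pivx p i) F.toPowerSeries
  obtain ⟨cf, hcf⟩ := Ideal.mem_span_range_iff_exists_fun.mp
    (B.SigmaBlock.mem_span_range_X (c - constants (constantCoeff c)) (by simp [constants]))
  have hres : ∀ k, residue (cf k) = WittVector.constantCoeff (coeff (Finsupp.single k 1) c) := by
    intro k
    have e := congrArg (coeff (Finsupp.single k 1)) hcf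
    rw [map_sum, map_sub, show constants (constantCoeff c) = C (constantCoeff c) from rfl,
      coeff_C, if_neg (by simp), sub_zero, sum_eq_single k] at e
    · rw [← e, coeff_single_one_mul, constantCoeff_X, mul_zero, add_zero, coeff_X, if_pos rfl,
        mul_one]
      rfl
    · intro j _ hj
      rw [coeff_single_one_mul, constantCoeff_X, mul_zero, add_zero, coeff_X,
        if_neg (by simp [Finsupp.single_eq_single_iff, hj.symm]), mul_zero]
    · intro hk; exact absurd (mem_univ k) hk
  have hu : residue (cf i) ≠ 0 := by rw [hres]; exact (linear_at_piv hF i i).1 rfl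
  obtain ⟨b, hb⟩ := CPoint.residue_surjective (p := p) (n := n) (residue (cf i))⁻¹
  refine ⟨s (cf i), s b, ?_, fun s' hd hconst => ?_⟩
  · rw [← map_mul, ← map_one s]
    exact local_congr hs (by rw [map_mul, hb, map_one, mul_inv_cancel₀ hu])
  have hX : ∀ k, s (X k) ∈ m := fun k => hs _ (by simp [residue])
  have hc : c = constants (constantCoeff c) + ∑ k, cf k * X k := by rw [hcf]; ring
  rw [map_sub, FormalGroup.map_toPowerSeries, FormalGroup.map_toPowerSeries, coeff_map, coeff_map]
  show s' c - s c = _
  rw [hc, map_add, map_add, hconst, map_sum, map_sum, add_sub_add_left_eq_sub, ← sum_sub_distrib,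
    sum_eq_single i]
  · have hX' : s' (X i) ∈ m := by simpa using m.add_mem (h.le (hd (X i))) (hX i)
    rw [map_mul, map_mul]
    linear_combination h.mul (hd (cf i)) hX'
  · intro k _ hk
    have hX' : s' (X k) ∈ m := by simpa using m.add_mem (h.le (hd (X k))) (hX k)
    rw [map_mul, map_mul]
    linear_combination h.mul (hd (cf k)) hX' +
      h.mul (hd (X k)) (hs (cf k) (by rw [hres]; exact (linear_at_piv hF i k).2 hk.symm))
  · intro hi; exact absurd (mem_univ i) hi

omit [Fact p.Prime] in
/-- Below degree p ^ n the correction between two congruent laws is their difference. -/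
theorem coeff_correction (h : Sq I m) {G G' : FormalGroup A} (hG : LowLaw p n m G)
    {Δ : MvPowerSeries (Fin 2) A} (hΔs : Sm I Δ)
    (hΔ : MvPowerSeries.subst ![G.toPowerSeries, Δ] G.toPowerSeries = G'.toPowerSeries)
    {x : Fin 2 →₀ ℕ} (hx : x.degree < p ^ n) :
    coeff x Δ = coeff x (G'.toPowerSeries - G.toPowerSeries) := by
  classical
  set D := PowerSeries.subst G.toPowerSeries (dY G)
  rw [h.law_add G (.of_constantCoeff_zero G.zero_constantCoeff) hΔs] at hΔ
  have hD0 : constantCoeff D = 1 := by
    rw [← coeff_zero_eq_constantCoeff_apply,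
      PowerSeries.coeff_subst (.of_constantCoeff_zero G.zero_constantCoeff), finsum_eq_single _ 0]
    · simp [coeff_zero_eq_constantCoeff_apply, constantCoeff_dY]
    · intro a ha
      rw [FE.coeff_pow_eq_zero_of_degree_lt G.zero_constantCoeff
        (by simpa using Nat.pos_of_ne_zero ha), smul_zero]
  have hΔ0 : constantCoeff Δ = 0 := by
    have e := congrArg constantCoeff hΔ
    rwa [map_add, map_mul, hD0, mul_one, G.zero_constantCoeff, zero_add,
      G'.zero_constantCoeff] at e
  rw [show G'.toPowerSeries - G.toPowerSeries = Δ + Δ * (D - 1) by rw [← hΔ]; ring, map_add,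
    left_eq_add, coeff_mul]
  refine sum_eq_zero fun ⟨a1, a2⟩ ha => ?_
  rw [HasAntidiagonal.mem_antidiagonal] at ha
  simp only at ha ⊢
  rcases Nat.eq_zero_or_pos a1.degree with h1 | h1
  · obtain rfl : a1 = 0 := (Finsupp.degree_eq_zero_iff a1).1 h1
    rw [coeff_zero_eq_constantCoeff_apply, hΔ0, zero_mul]
  refine h.mul (hΔs a1) ?_
  have hdeg : a2.degree < x.degree := by rw [← ha, map_add]; omega
  rw [map_sub, coeff_one]
  by_cases h2 : a2 = 0
  · subst h2
    rw [if_pos rfl, coeff_zero_eq_constantCoeff_apply, hD0, sub_self]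
    exact m.zero_mem
  rw [if_neg h2, sub_zero, PowerSeries.coeff_subst (.of_constantCoeff_zero G.zero_constantCoeff)]
  refine finsum_induction (p := fun y => y ∈ m) m.zero_mem (fun _ _ => m.add_mem) fun a => ?_
  rw [smul_eq_mul]
  rcases Nat.eq_zero_or_pos a with rfl | ha0
  · rw [pow_zero, coeff_one, if_neg h2, mul_zero]; exact m.zero_mem
  by_cases hlt : a2.degree < a
  · rw [FE.coeff_pow_eq_zero_of_degree_lt G.zero_constantCoeff hlt, mul_zero]; exact m.zero_mem
  refine Ideal.mul_mem_right _ _ ?_
  have hl := hG.low (bideg a 1) (by rw [degree_two]; simp; omega)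
  rw [map_add, coeff_X, coeff_X, if_neg, if_neg, add_zero, sub_zero] at hl
  · simpa [dY, PowerSeries.coeff_mk] using hl
  all_goals intro h'
  · simpa [ha0.ne'] using congrArg (fun f => f (0 : Fin 2)) h'
  · simpa using congrArg (fun f => f (1 : Fin 2)) h'

theorem constantCoeff_move (h : Sq I m) (G : FormalGroup A) {θ ψ : PowerSeries A}
    (hθ : PowerSeries.constantCoeff θ = 0) (hψ : Sm I ψ)
    (he : PowerSeries.constantCoeff (MvPowerSeries.subst ![θ, ψ] G.toPowerSeries : PowerSeries A)
      = 0) : PowerSeries.constantCoeff ψ = 0 := by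
  rw [h.law_add G (.of_constantCoeff_zero' hθ) hψ] at he
  have hu := isUnit_dY_subst G (a := (θ : MvPowerSeries Unit A)) hθ
  rw [MvPowerSeries.isUnit_iff_constantCoeff] at hu
  change MvPowerSeries.constantCoeff (θ + ψ * PowerSeries.subst θ (dY G)) = 0 at he
  rw [map_add, map_mul, show MvPowerSeries.constantCoeff θ = 0 from hθ, zero_add] at he
  exact hu.mul_left_eq_zero.1 he

/-- One step of the approximation. -/
theorem step_exists (h : Sq I m) (hn : 1 ≤ n) {F : FormalGroup (E0 p n)}
    (hF : IsUniversalDeformation p n F) {s : E0 p n →+* A} (hs : Local m s) {H : FormalGroup A}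
    [H.IsComm] (hHF : Sm m (H.toPowerSeries - (F.map s).toPowerSeries)) {θ : PowerSeries A}
    (hθ : PowerSeries.constantCoeff θ = 0) (hθX : Sm m (θ - PowerSeries.X))
    (hd : Sm I (defect H (F.map s) θ)) :
    ∃ δ : Fin (n - 1) → A, (∀ i, δ i ∈ I) ∧ ∀ s' : E0 p n →+* A, (∀ b, s' b - s b ∈ I) →
      (∀ w, s' (constants w) = s (constants w)) → (∀ i, s' (X i) - s (X i) = δ i) →
      ∃ ψ : PowerSeries A, Sm I ψ ∧ PowerSeries.constantCoeff ψ = 0 ∧
        defect H (F.map s') (MvPowerSeries.subst ![θ, ψ] (F.map s').toPowerSeries) = 0 := by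
  have hL := lowLaw hn hF hs hHF
  have hFc := EF.isComm_universal hF
  have := isComm_map F s
  have hLG : LowLaw p n m (F.map s) :=
    lowLaw hn hF hs (by rw [sub_self]; exact sm_zero)
  obtain ⟨E, hEs, hE⟩ := h.law_exists (F.map s)
    (constantCoeff_law (F.map s) (PowerSeries.constantCoeff_subst_eq_zero (constantCoeff_X _) _ hθ)
      (PowerSeries.constantCoeff_subst_eq_zero (constantCoeff_X _) _ hθ)) hd
  have hErr : Err H (F.map s) θ E := hE.symm
  choose u v huv hshift using fun i => shift_piv h hF hs i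
  refine ⟨fun i => coeff (pivx p i) E * v i, fun i => Ideal.mul_mem_right _ _ (hEs _),
    fun s' hd' hconst hX => ?_⟩
  have := isComm_map F s'
  have hGs : Sm I ((F.map s').toPowerSeries - (F.map s).toPowerSeries) := fun e => by
    rw [map_sub, FormalGroup.map_toPowerSeries, FormalGroup.map_toPowerSeries, coeff_map,
      coeff_map]
    exact hd' _
  obtain ⟨Δ, hΔs, hΔ⟩ := h.law_exists (F.map s) (F.map s).zero_constantCoeff hGs
  have hErr' := h.err_law hΔs hGs hΔ.symm hθ hθX hEs hErr
  have hcl := h.cl_err hθ (hEs.sub hΔs) hErr'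
  obtain ⟨ψ, hψ, hψ0, hψE⟩ := exists_cob h hL (hEs.sub hΔs) hcl fun i hi hin => by
    obtain ⟨k, rfl⟩ : ∃ k : Fin (n - 1), i = k.1 + 1 :=
      ⟨⟨i - 1, by omega⟩, (Nat.sub_add_cancel hi).symm⟩
    obtain ⟨b0, b1, bd⟩ := bideg_piv (p := p) (two_le_pow_succ (p := p) k.1)
    rw [map_sub, coeff_correction h hLG hΔs hΔ
      (bd.symm ▸ Nat.pow_lt_pow_right (Fact.out : p.Prime).one_lt hin), hshift k s' hd' hconst, hX]
    have := h.mul (hEs (pivx p k)) (huv k)
    rw [mul_sub, mul_one, sub_eq_zero] at this
    linear_combination -this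
  refine ⟨ψ, hψ, hψ0, ?_⟩
  have hmove := h.err_move hθ hψ (hEs.sub hΔs) hErr'
  rw [hψE] at hmove
  refine (err_zero_iff _ _ ?_).1 hmove
  exact constantCoeff_law (F.map s') hθ hψ0

/-- Two solutions congruent modulo I are equal. -/
theorem step_unique (h : Sq I m) (hn : 1 ≤ n) {F : FormalGroup (E0 p n)}
    (hF : IsUniversalDeformation p n F) {s s' : E0 p n →+* A} (hs : Local m s)
    (hd : ∀ b, s' b - s b ∈ I) (hconst : ∀ w, s' (constants w) = s (constants w))
    {H : FormalGroup A} [H.IsComm] (hHF : Sm m (H.toPowerSeries - (F.map s).toPowerSeries))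
    {θ θ' : PowerSeries A} (hθ : PowerSeries.constantCoeff θ = 0)
    (hθ' : PowerSeries.constantCoeff θ' = 0) (hθX : Sm m (θ - PowerSeries.X))
    (hθθ : Sm I (θ' - θ)) (hz : defect H (F.map s) θ = 0) (hz' : defect H (F.map s') θ' = 0) :
    (∀ i, s' (X i) = s (X i)) ∧ (F.map s' = F.map s → θ' = θ) := by
  have hL := lowLaw hn hF hs hHF
  have hFc := EF.isComm_universal hF
  have := isComm_map F s
  have := isComm_map F s'
  have hLG : LowLaw p n m (F.map s) :=
    lowLaw hn hF hs (by rw [sub_self]; exact sm_zero)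
  have hGs : Sm I ((F.map s').toPowerSeries - (F.map s).toPowerSeries) := fun e => by
    rw [map_sub, FormalGroup.map_toPowerSeries, FormalGroup.map_toPowerSeries, coeff_map,
      coeff_map]
    exact hd _
  obtain ⟨Δ, hΔs, hΔ⟩ := h.law_exists (F.map s) (F.map s).zero_constantCoeff hGs
  obtain ⟨ψ, hψ, hψe⟩ := h.law_exists (F.map s') (a := (θ : MvPowerSeries Unit A)) hθ hθθ
  have hψ0 := constantCoeff_move h (F.map s') hθ hψ (by rw [hψe]; exact hθ')
  have hE1 := h.err_law hΔs hGs hΔ.symm hθ hθX sm_zero ((err_zero_iff _ _ hθ).2 hz)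
  have hE2 := h.err_move hθ hψ (sm_zero.sub hΔs) hE1
  rw [hψe] at hE2
  have hE3 := (err_zero_iff _ _ hθ').2 hz'
  have e0 : 0 - Δ + cob H ψ = 0 :=
    h.law_cancel (F.map s') (constantCoeff_law (F.map s')
      (PowerSeries.constantCoeff_subst_eq_zero (constantCoeff_X _) _ hθ')
      (PowerSeries.constantCoeff_subst_eq_zero (constantCoeff_X _) _ hθ'))
      ((sm_zero.sub hΔs).add (sm_cob hψ)) sm_zero (hE2.symm.trans hE3)
  refine ⟨fun i => ?_, fun hlaw => ?_⟩
  · obtain ⟨u, v, huv, hshift⟩ := shift_piv h hF hs i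
    obtain ⟨b0, b1, bd⟩ := bideg_piv (p := p) (two_le_pow_succ (p := p) i.1)
    have hi : i.1 + 1 < n := by have := i.2; omega
    have e := congrArg (coeff (pivx p i)) e0
    rw [map_add, map_sub, map_zero, zero_sub, coeff_cob_low h hL hψ hi b0 b1 bd, add_zero,
      neg_eq_zero, coeff_correction h hLG hΔs hΔ
      (bd.symm ▸ Nat.pow_lt_pow_right (Fact.out : p.Prime).one_lt hi), hshift s' hd hconst] at e
    rw [← sub_eq_zero]
    linear_combination v * e - h.mul (hd (X i)) huv
  · have hΔ0 : Δ = 0 := by
      rw [hlaw] at hΔ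
      refine h.law_cancel (F.map s) (F.map s).zero_constantCoeff hΔs sm_zero ?_
      rw [hΔ, (F.map s).add_zero (.of_constantCoeff_zero (F.map s).zero_constantCoeff)]
    rw [hΔ0, sub_zero, zero_add] at e0
    rw [cob_injective h hL hψ hψ0 e0] at hψe
    rw [← hψe, (F.map s').add_zero (PowerSeries.HasSubst.of_constantCoeff_zero' hθ)]

end Vale.Agent.P217.Univ
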